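import Crest.Agent.X212.An.Strat

-- ▼ part X212/An/Cells
section

/-!
# Row 212, layer AN: counts on cells and Stokes

`Q σ` is the moduli problem of the cell `σ` (parameters in a neighbourhood of `[0,1)^σ`),
`inc` identifies the facet `t a = 0` with the cell `σ.erase a`.
-/

set_option autoImplicit false
set_option linter.unusedSectionVars false
noncomputable section
open Set Filter Topology Function

namespace Crest.Agent.X212.An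
open Mod61

/-- moduli problems over a cube complex -/
structure Cx (W A : Type) [DecidableEq A] : Type 1 where
  Q : Finset A → Prob W
  tc : ∀ σ, A → ∀ o, (Q σ).C o →L[ℝ] ℝ
  inc : ∀ σ a, (Q (Finset.erase σ a)).X → (Q σ).X
  n₀ : ℤ

namespace Cx
variable {W A : Type} [DecidableEq A] (K : Cx W A)

/-- the parameter of a configuration -/
def par {σ : Finset A} (x : (K.Q σ).X) (a : A) : ℝ := K.tc σ a x.1 ((K.Q σ).pt x.2)

/-- solutions over the half open cube -/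
def M (σ : Finset A) (q : W →₀ ℝ) : Set (K.Q σ).X :=
  {x | (K.Q σ).Sol q x ∧ ∀ a ∈ σ, 0 ≤ K.par x a ∧ K.par x a < 1}

/-- the count on a cell -/
def z (q : W →₀ ℝ) (σ : Finset A) : ℕ := (K.Q σ).cnt (K.M σ q)

/-- the count on the facet `t a = T` -/
def zT (q : W →₀ ℝ) (σ : Finset A) (a : A) (T : ℝ) : ℕ :=
  (K.Q σ).cnt {x | x ∈ K.M σ q ∧ K.par x a = T}

/-- the level set of `t a` through `x` is cut out regularly -/
def Tr (q : W →₀ ℝ) {σ : Finset A} (x : (K.Q σ).X) (a : A) : Prop :=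
  Surjective ((fderiv ℝ ((K.Q σ).F x.1 q) ((K.Q σ).pt x.2)).prod (K.tc σ a x.1))

/-- the axioms for the cell `σ` and its facets -/
structure Ax (Adm : (W →₀ ℝ) → Prop) (σ : Finset A) : Prop where
  ax : (K.Q σ).Ax Adm
  n : (K.Q σ).n = K.n₀ + σ.card
  tc_g : ∀ a o (g : (K.Q σ).G o), ∀ v ∈ (K.Q σ).U o, K.tc σ a o (g • v) = K.tc σ a o v
  tc_e : ∀ a (x y : (K.Q σ).X), (K.Q σ).In x → (K.Q σ).eqv x y → K.par x a = K.par y a
  inc_eqv : ∀ a ∈ σ, ∀ x y, (K.Q σ).eqv (K.inc σ a x) (K.inc σ a y) ↔ (K.Q (σ.erase a)).eqv x y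
  inc_sol : ∀ a ∈ σ, ∀ q x, (K.Q σ).Sol q (K.inc σ a x) ↔ (K.Q (σ.erase a)).Sol q x
  inc_self : ∀ a ∈ σ, ∀ x, K.par (K.inc σ a x) a = 0
  inc_ne : ∀ a ∈ σ, ∀ x, ∀ b ∈ σ.erase a, K.par (K.inc σ a x) b = K.par x b
  inc_surj : ∀ a ∈ σ, ∀ y, (K.Q σ).In y → K.par y a = 0 → ∃ x, K.inc σ a x = y
  inc_reg : ∀ a ∈ σ, ∀ q x, Adm q → (K.Q (σ.erase a)).Sol q x → (K.Q (σ.erase a)).Reg q x →
    K.Tr q (K.inc σ a x) a

variable {K} {Adm : (W →₀ ℝ) → Prop} {σ : Finset A} {q : W →₀ ℝ}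

theorem Tr.reg {x : (K.Q σ).X} {a : A} (h : K.Tr q x a) : (K.Q σ).Reg q x := surj_of_surj_prod h

namespace Ax
variable (h : K.Ax Adm σ)
include h

theorem sat_M : (K.Q σ).Sat (K.M σ q) := fun x y e hx =>
  ⟨h.ax.sol_eqv e hx.1, fun a ha => h.tc_e a x y hx.1.1 e ▸ hx.2 a ha⟩

theorem inc_mem {a : A} (ha : a ∈ σ) {x : (K.Q (σ.erase a)).X} :
    K.inc σ a x ∈ K.M σ q ↔ x ∈ K.M (σ.erase a) q := by
  refine and_congr (h.inc_sol a ha q x) ⟨fun h1 b hb => ?_, fun h1 b hb => ?_⟩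
  · rw [← h.inc_ne a ha x b hb]; exact h1 b (Finset.mem_of_mem_erase hb)
  · by_cases e : b = a
    · rw [e, h.inc_self a ha]; exact ⟨le_rfl, one_pos⟩
    · have hb' := Finset.mem_erase.2 ⟨e, hb⟩
      rw [h.inc_ne a ha x b hb']; exact h1 b hb'

/-- negative index -/
theorem empty (ha : Adm q) (hn : K.n₀ + σ.card < 0) (hr : ∀ x ∈ K.M σ q, (K.Q σ).Reg q x) :
    K.M σ q = ∅ :=
  eq_empty_of_forall_notMem fun x hx => by
    have := h.ax.nonneg ha hx.1 (hr x hx)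
    rw [h.n] at this; omega

/-- index zero -/
theorem finite (ha : Adm q) (hn : K.n₀ + σ.card = 0) (hc : (K.Q σ).Cpt (K.M σ q))
    (hr : ∀ x ∈ K.M σ q, (K.Q σ).Reg q x) : Finite ((K.Q σ).Cl (K.M σ q)) :=
  h.ax.finite ha (h.n.trans hn) (fun _ hx => hx.1) h.sat_M hc hr

/-- on a compact solution set the parameters stay away from `1` -/
theorem lt_of_cpt (hc : (K.Q σ).Cpt (K.M σ q)) :
    ∀ᶠ T in 𝓝[<] (1 : ℝ), ∀ x ∈ K.M σ q, ∀ a ∈ σ, K.par x a < T := by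
  by_contra hn
  rw [not_eventually] at hn
  have hne : NeBot (𝓝[<] (1 : ℝ) ⊓ 𝓟 {T | ¬ ∀ x ∈ K.M σ q, ∀ a ∈ σ, K.par x a < T}) :=
    frequently_iff_neBot.1 hn
  obtain ⟨𝒰, h𝒰⟩ := Ultrafilter.exists_le
    (𝓝[<] (1 : ℝ) ⊓ 𝓟 {T | ¬ ∀ x ∈ K.M σ q, ∀ a ∈ σ, K.par x a < T})
  have h1 : ∀ᶠ T in (𝒰 : Filter ℝ), ∃ x ∈ K.M σ q, ∃ a ∈ σ, T ≤ K.par x a := by
    filter_upwards [le_principal_iff.1 (h𝒰.trans inf_le_right)] with T hT
    simpa only [mem_setOf_eq, not_forall, not_lt, exists_prop] using hT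
  obtain ⟨T₀, x₁, -⟩ := h1.exists
  have : Nonempty (K.Q σ).X := ⟨x₁⟩
  choose! u hu using fun T (hT : ∃ x ∈ K.M σ q, ∃ a ∈ σ, T ≤ K.par x a) => hT
  obtain ⟨x₀, hx₀, hl⟩ := hc ℝ 𝒰 u (h1.mono fun T hT => (hu T hT).1)
  have h2 : ∀ᶠ T in (𝒰 : Filter ℝ), ∀ a ∈ σ, K.par (u T) a < T := by
    refine (eventually_all_finset σ).2 fun a ha => ?_
    obtain ⟨c, hc1, hc2⟩ := exists_between (hx₀.2 a ha).2
    have h3 := (K.Q σ).tendsto_near.1 hl {v | K.tc σ a x₀.1 v < c}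
      ((isOpen_lt (K.tc σ a x₀.1).continuous continuous_const).mem_nhds hc1)
    have h4 : ∀ᶠ T in (𝒰 : Filter ℝ), c < T :=
      (h𝒰.trans (inf_le_left.trans nhdsWithin_le_nhds)) (Ioi_mem_nhds hc2)
    filter_upwards [h1, h3, h4] with T hT ⟨y, hy, he⟩ hT'
    rw [h.tc_e a _ _ (hu T hT).1.1.1 he]
    exact hy.trans hT'
  obtain ⟨T, hT, hT'⟩ := (h1.and h2).exists
  obtain ⟨a, ha, h5⟩ := (hu T hT).2
  exact absurd (hT' a ha) (not_lt.2 h5)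

theorem cnt_facet {a : A} (ha : a ∈ σ) {B : Set (K.Q σ).X}
    (hB : ∀ y, y ∈ B ↔ y ∈ K.M σ q ∧ K.par y a = 0) : K.z q (σ.erase a) = (K.Q σ).cnt B := by
  refine (cnt_congr (A := K.M (σ.erase a) q) (A' := B)
    (fun x => ⟨K.inc σ a x, (hB _).2 ⟨(h.inc_mem ha).2 x.2, h.inc_self a ha _⟩⟩)
    (fun x y => (h.inc_eqv a ha _ _).symm) fun y => ?_).2
  obtain ⟨h1, h2⟩ := (hB _).1 y.2
  obtain ⟨x, hx⟩ := h.inc_surj a ha y h1.1.1 h2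
  exact ⟨⟨x, (h.inc_mem ha).1 (hx ▸ h1)⟩, by simp only [hx]; exact (K.Q σ).eqv.refl _⟩

/-- **Stokes on a truncated cell.** -/
theorem stokes (ha : Adm q) (hn : K.n₀ + σ.card = 1) {T : ℝ} (h0 : 0 < T) (h1 : T < 1)
    (hc : (K.Q σ).Cpt {x | x ∈ K.M σ q ∧ ∀ a ∈ σ, K.par x a ≤ T})
    (hr : ∀ x ∈ K.M σ q, (K.Q σ).Reg q x)
    (hlow : ∀ a ∈ σ, ∀ x ∈ K.M (σ.erase a) q, (K.Q (σ.erase a)).Reg q x ∧
      ∀ b ∈ σ.erase a, 0 < K.par x b ∧ K.par x b < T)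
    (hup : ∀ a ∈ σ, ∀ x ∈ K.M σ q, K.par x a = T → K.Tr q x a ∧ ∀ b ∈ σ.erase a, K.par x b < T) :
    Even (∑ a ∈ σ, K.z q (σ.erase a) + ∑ a ∈ σ, K.zT q σ a T) := by
  let t : σ ⊕ σ → ∀ o, (K.Q σ).C o → ℝ := fun i o v =>
    i.elim (fun a : σ => K.tc σ a o v) fun a : σ => T - K.tc σ a o v
  have hmem : ∀ x : (K.Q σ).X, ((K.Q σ).Sol q x ∧ ∀ i, 0 ≤ t i x.1 ((K.Q σ).pt x.2)) ↔
      x ∈ K.M σ q ∧ ∀ a ∈ σ, K.par x a ≤ T := fun x =>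
    ⟨fun hx => ⟨⟨hx.1, fun a ha => ⟨hx.2 (.inl ⟨a, ha⟩),
        (sub_nonneg.1 (hx.2 (.inr ⟨a, ha⟩))).trans_lt h1⟩⟩,
        fun a ha => sub_nonneg.1 (hx.2 (.inr ⟨a, ha⟩))⟩,
      fun hx => ⟨hx.1.1, fun i => by
        rcases i with a | a
        · exact (hx.1.2 a a.2).1
        · exact sub_nonneg.2 (hx.2 a a.2)⟩⟩
  have hlow' : ∀ a ∈ σ, ∀ y ∈ K.M σ q, K.par y a = 0 → K.Tr q y a ∧
      ∀ b ∈ σ.erase a, 0 < K.par y b ∧ K.par y b < T := fun a haσ y hy h2 => by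
    obtain ⟨x, rfl⟩ := h.inc_surj a haσ y hy.1.1 h2
    have hx := (h.inc_mem haσ).1 hy
    refine ⟨h.inc_reg a haσ q x ha hx.1 (hlow a haσ x hx).1, fun b hb => ?_⟩
    rw [h.inc_ne a haσ x b hb]; exact (hlow a haσ x hx).2 b hb
  have key := h.ax.stokes ha (h.n.trans hn) t
    (fun i o => by
      rcases i with a | a
      · exact (K.tc σ a o).continuous.continuousOn
      · exact (continuous_const.sub (K.tc σ a o).continuous).continuousOn)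
    (fun i o g v hv => by rcases i with a | a <;> simp only [t, Sum.elim_inl, Sum.elim_inr,
      h.tc_g a o g v hv])
    (fun i x y hx e => by
      rcases i with a | a
      · exact h.tc_e a x y hx e
      · exact congrArg (T - ·) (h.tc_e a x y hx e))
    (by simpa only [hmem] using hc)
    (fun x hx hx' => by
      have hm := ((hmem x).1 ⟨hx, hx'⟩).1
      refine ⟨hr x hm, fun i hi => ?_⟩
      rcases i with a | a
      · exact ⟨_, (K.tc σ a x.1).hasStrictFDerivAt, (hlow' a a.2 x hm hi).1⟩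
      · refine ⟨-K.tc σ a x.1, (K.tc σ a x.1).hasStrictFDerivAt.const_sub T, ?_⟩
        rintro ⟨f, r⟩
        obtain ⟨u, hu⟩ := (hup a a.2 x hm (sub_eq_zero.1 hi).symm).1 (f, -r)
        have h2 := congrArg Prod.fst hu
        refine ⟨u, Prod.ext h2 ?_⟩
        have h3 : K.tc σ a x.1 u = -r := congrArg Prod.snd hu
        simp [h3])
    (fun x hx hx' i j hi hj => by
      have hm := ((hmem x).1 ⟨hx, hx'⟩).1
      have e1 : ∀ a b : σ, K.par x a = 0 → K.par x b = T → False := fun a b h2 h3 => by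
        by_cases e : (b : A) = a
        · rw [e, h2] at h3; exact h0.ne h3
        · exact ((hlow' a a.2 x hm h2).2 b (Finset.mem_erase.2 ⟨e, b.2⟩)).2.ne h3
      rcases i with a | a <;> rcases j with b | b
      · by_contra e
        have e' : (b : A) ≠ a := fun e' => e (congrArg Sum.inl (Subtype.ext e'.symm))
        exact ((hlow' a a.2 x hm hi).2 b (Finset.mem_erase.2 ⟨e', b.2⟩)).1.ne' hj
      · exact (e1 a b hi (sub_eq_zero.1 hj).symm).elim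
      · exact (e1 b a hj (sub_eq_zero.1 hi).symm).elim
      · by_contra e
        have e' : (b : A) ≠ a := fun e' => e (congrArg Sum.inr (Subtype.ext e'.symm))
        exact ((hup a a.2 x hm (sub_eq_zero.1 hi).symm).2 b
          (Finset.mem_erase.2 ⟨e', b.2⟩)).ne (sub_eq_zero.1 hj).symm)
  have h2 := key.2
  rw [Fintype.sum_sum_type] at h2
  rw [← Finset.sum_coe_sort σ, ← Finset.sum_coe_sort σ fun a => K.zT q σ a T]
  convert h2 using 3 with a _ a _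
  · refine h.cnt_facet a.2 fun y => ⟨fun hy => ⟨((hmem y).1 ⟨hy.1, hy.2.1⟩).1, hy.2.2⟩, fun hy => ?_⟩
    have h3 := (hmem y).2 ⟨hy.1, fun b hb => by
      by_cases e : b = a
      · rw [e, hy.2]; exact h0.le
      · exact ((hlow' a a.2 y hy.1 hy.2).2 b (Finset.mem_erase.2 ⟨e, hb⟩)).2.le⟩
    exact ⟨h3.1, h3.2, hy.2⟩
  · refine congrArg _ (Set.ext fun y => ⟨fun hy => ?_, fun hy => ?_⟩)
    · have h3 := (hmem y).2 ⟨hy.1, fun b hb => by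
        by_cases e : b = a
        · rw [e, hy.2]
        · exact ((hup a a.2 y hy.1 hy.2).2 b (Finset.mem_erase.2 ⟨e, hb⟩)).le⟩
      exact ⟨h3.1, h3.2, sub_eq_zero.2 hy.2.symm⟩
    · exact ⟨((hmem y).1 ⟨hy.1, hy.2.1⟩).1, (sub_eq_zero.1 hy.2.2).symm⟩

end Ax
end Cx
end Crest.Agent.X212.An
end
end

-- ▼ part X212/An/Asm

/-!
# Row 212, layer AN: the abstract assembly

`Idl` : ideal (non top) strata with their parts, killed or faces.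
`Asm` : cells, lower strata, face objects; output: one good perturbation, finiteness, Stokes.
-/

set_option autoImplicit false
set_option linter.unusedSectionVars false
noncomputable section
open Set Filter Topology Function

namespace Crest.Agent.X212.An
open Mod61

theorem ax_mono {W : Type} {Q : Prob W} {Adm Adm' : (W →₀ ℝ) → Prop} (h : Q.Ax Adm)
    (h' : ∀ q, Adm' q → Adm q) : Q.Ax Adm' :=
  { h with slc := fun q x ha => h.slc q x (h' q ha) }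

/-- finitely many open and dense conditions -/
theorem St.exists_all {W I : Type} [Finite I] {P : I → (W →₀ ℝ) → Prop} (hP : ∀ i, St.IsOp (P i))
    {O : (W →₀ ℝ) → Prop} (hO : St.IsOp O) {q₀ : W →₀ ℝ} (h0 : O q₀)
    (hd : ∀ i (O' : (W →₀ ℝ) → Prop), St.IsOp O' → ∀ q, O q → O' q → ∃ q', O' q' ∧ P i q') :
    ∃ q, O q ∧ ∀ i, P i q := by
  classical
  have := Fintype.ofFinite I
  have key : ∀ s : Finset I, St.IsOp (fun q => O q ∧ ∀ i ∈ s, P i q) ∧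
      ∃ q, O q ∧ ∀ i ∈ s, P i q := fun s => by
    induction s using Finset.induction_on with
    | empty => exact ⟨by simpa using hO, q₀, h0, by simp⟩
    | insert a s _ ih =>
      obtain ⟨h1, q, h2⟩ := ih
      obtain ⟨q', h3, h4⟩ := hd a _ h1 q h2.1 h2
      refine ⟨?_, q', h3.1, by simpa using ⟨h4, h3.2⟩⟩
      simpa only [Finset.forall_mem_insert, and_assoc, and_comm, and_left_comm] using h1.and (hP a)
  obtain ⟨q, h1, h2⟩ := (key Finset.univ).2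
  exact ⟨q, h1, fun i => h2 i (Finset.mem_univ i)⟩

theorem St.isOp_all {W I : Type} [Finite I] {P : I → (W →₀ ℝ) → Prop} (hP : ∀ i, St.IsOp (P i)) :
    St.IsOp fun q => ∀ i, P i q :=
  fun q₀ h ι l q hq => eventually_all.2 fun i => hP i q₀ (h i) ι l q hq

/-! ### ideal strata -/

/-- admissible and good perturbations -/
structure Low (W : Type) where
  Adm : (W →₀ ℝ) → Prop
  G : (W →₀ ℝ) → Prop

/-- the good set is open and dense in the admissible set -/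
structure Low.Ax {W : Type} (L : Low W) : Prop where
  le : ∀ q, L.G q → L.Adm q
  op : St.IsOp L.G
  ex : ∀ O : (W →₀ ℝ) → Prop, St.IsOp O → ∀ q₀, L.Adm q₀ → O q₀ → ∃ q, O q ∧ L.G q

/-- two stages -/
theorem Low.Ax.trans {W : Type} {Adm G G' : (W →₀ ℝ) → Prop} (h : Low.Ax ⟨Adm, G⟩)
    (h' : Low.Ax ⟨G, G'⟩) : Low.Ax ⟨Adm, G'⟩ where
  le q hq := h.le q (h'.le q hq)
  op := h'.op
  ex O hO q₀ h1 h2 := by
    obtain ⟨q, h3, h4⟩ := h.ex O hO q₀ h1 h2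
    exact h'.ex O hO q h4 h3

theorem St.Ax.low {W : Type} {T : St W} (h : T.Ax) :
    Low.Ax ⟨T.Adm, fun q => T.Adm q ∧ ∀ s, T.Good s q⟩ where
  le _ hq := hq.1
  op := h.isOp_good
  ex _ hO _ h1 h2 := by
    obtain ⟨q, h3, h4, h5⟩ := h.exists_good hO h1 h2
    exact ⟨q, h4, h3, h5⟩

/-- ideal strata `S`, full objects `X`, parts `J` to be regularised; a part may be regularised by
any one of the problems `P s j i` (charts `i`; usually `I s j = Unit`) -/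
structure Idl (W : Type) : Type 1 where
  S : Type
  X : S → Type
  Sol : ∀ s, (W →₀ ℝ) → X s → Prop
  J : S → Type
  I : ∀ s, J s → Type
  P : ∀ s j, I s j → Prob W
  pr : ∀ {s j} (i : I s j), X s → (P s j i).X
  rank : S → ℕ
  Adm : (W →₀ ℝ) → Prop
  face : S → Prop

namespace Idl
open Fin93 St
variable {W : Type} (D : Idl W)

/-- the part `j` is regular -/
def RegJ {s : D.S} (j : D.J s) (q : W →₀ ℝ) (x : D.X s) : Prop :=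
  ∃ i : D.I s j, (D.P s j i).Reg q (D.pr i x)

/-- all parts are regular -/
def Reg {s : D.S} (q : W →₀ ℝ) (x : D.X s) : Prop := ∀ j, D.RegJ j q x

/-- good perturbations -/
def G (q : W →₀ ℝ) : Prop := D.Adm q ∧ ∀ s x, D.Sol s q x → D.Reg q x

structure Ax : Prop where
  fin : Finite D.S
  finJ : ∀ s, Finite (D.J s)
  ax : ∀ s j i, (D.P s j i).Ax D.Adm
  adm : St.IsOp D.Adm
  sol : ∀ s j i q x, D.Adm q → D.Sol s q x → (D.P s j i).Sol q (D.pr i x)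
  dens : ∀ s j q x, D.Adm q → D.Sol s q x → ∃ i : D.I s j,
    (D.P s j i).Reg q (D.pr i x) ∨ ∃ J, (D.P s j i).Onto q (D.pr i x) J
  kill : ∀ s q x, ¬D.face s → D.Adm q → D.Sol s q x → ¬D.Reg q x
  comp : ∀ s q₀, D.Adm q₀ → ∀ (ι : Type) (𝒰 : Ultrafilter ι) (q : ι → W →₀ ℝ) (u : ι → D.X s),
    St.Cv (𝒰 : Filter ι) q q₀ → (∀ᶠ n in (𝒰 : Filter ι), D.Adm (q n) ∧ D.Sol s (q n) (u n)) →
    (∃ x₀, D.Sol s q₀ x₀ ∧ ∀ j (i : D.I s j),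
      Tendsto (fun n => D.pr i (u n)) 𝒰 ((D.P s j i).Near (D.pr i x₀))) ∨
    ∃ s' x₀, D.rank s' < D.rank s ∧ D.Sol s' q₀ x₀ ∧
      (D.face s' → D.Reg q₀ x₀ → ∀ᶠ n in (𝒰 : Filter ι), D.Reg (q n) (u n))

/-- the data for `Fin93` -/
def dat (O : (W →₀ ℝ) → Prop) (q₀ : W →₀ ℝ) :
    Fin93.Dat (W →₀ ℝ) (Finset W) (Σ s, D.J s) (fun J => J → ℝ) fun s => D.X s.1 where
  ι J p := q₀ + ext0 J p
  rank s := D.rank s.1
  Adm q := D.Adm q ∧ O q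
  Sol s := D.Sol s.1
  Reg s := D.RegJ s.2
  Onto s q x J := ∃ i : D.I s.1 s.2, (D.P s.1 s.2 i).Onto q (D.pr i x) J
  Near s x₀ := ⨅ i : D.I s.1 s.2, comap (D.pr i) ((D.P s.1 s.2 i).Near (D.pr i x₀))

variable {D}

theorem tendsto_pr {s : D.S} {j : D.J s} (i : D.I s j) (x₀ : D.X s) : Tendsto (D.pr i)
    (⨅ i : D.I s j, comap (D.pr i) ((D.P s j i).Near (D.pr i x₀))) ((D.P s j i).Near (D.pr i x₀)) :=
  tendsto_comap.mono_left (iInf_le _ i)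

omit D in
theorem add_ext0 (q₀ : W →₀ ℝ) (J : Finset W) : q₀ + ext0 J 0 = q₀ := by
  ext w
  by_cases hw : w ∈ J
  · simpa using Fin93.ext0_mem (0 : J → ℝ) ⟨w, hw⟩
  · simpa using Fin93.ext0_not_mem (0 : J → ℝ) hw

namespace Ax
variable (h : D.Ax)
include h

theorem hyp {O : (W →₀ ℝ) → Prop} (hO : IsOp O) (q₀ : W →₀ ℝ) : (D.dat O q₀).Hyp where
  stage J J' hJ p := by
    obtain ⟨p', hp'⟩ := Fin93.ext0_stage J J' hJ p
    exact ⟨p', congrArg (q₀ + ·) hp'⟩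
  adm J p₀ ha := (IsOp.and h.adm hO) _ ha _ _ _ (cv_ext0 q₀ tendsto_id)
  mono _ _ _ _ _ hJ := fun ⟨i, ho⟩ => ⟨i, Prob.Ax.onto_mono hJ ho⟩
  dens s J p x ha hx := by
    obtain ⟨i, h1 | ⟨J', h1⟩⟩ := h.dens s.1 s.2 _ x ha.1 hx
    exacts [.inl ⟨i, h1⟩, .inr ⟨J', i, h1⟩]
  onto s J p x₀ J' ha hx := fun ⟨i, ho⟩ =>
    ((tendsto_pr i x₀).eventually ((h.ax _ _ i).onto_open (h.sol _ _ i _ x₀ ha.1 hx).1 ho)).mono
      fun x h1 h2 => ⟨i, h1 (h.sol _ _ i _ x ha.1 h2).1⟩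
  reg s J p₀ x₀ ha hx := fun ⟨i, hr⟩ => by
    have h1 := (h.ax _ _ i).reg_open (h.sol _ _ i _ x₀ ha.1 hx).1 hr
    have h2 := (tendsto_id (x := 𝓝 p₀)).prodMap (tendsto_pr i x₀)
    have h3 := tendsto_fst (g := (D.dat O q₀).Near s x₀) |>.eventually
      (h.adm _ ha.1 _ _ _ (cv_ext0 q₀ (tendsto_id (x := 𝓝 p₀))))
    filter_upwards [h2.eventually h1, h3] with z h4 h5 h6
    exact ⟨i, h4 (h.sol _ _ i _ _ h5 h6).1⟩
  loc s J p₀ x₀ ha hx := fun ⟨i, ho⟩ => by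
    obtain ⟨A, hA, hres⟩ := (h.ax _ _ i).loc ha.1 (h.sol _ _ i _ x₀ ha.1 hx) ho
    have h2 := (tendsto_id (x := 𝓝 p₀)).prodMap (tendsto_pr i x₀)
    have h3 := tendsto_fst (g := (D.dat O q₀).Near s x₀) |>.eventually
      (h.adm _ ha.1 _ _ _ (cv_ext0 q₀ (tendsto_id (x := 𝓝 p₀))))
    refine ⟨_, inter_mem (h2 hA) h3, hres.mono fun p hp x h4 h5 => ?_⟩
    exact ⟨i, hp (D.pr i x) h4.1 (h.sol _ _ i _ x h4.2 h5)⟩
  comp s J p₀ ha hg 𝒰 h1 h2 := by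
    have hc := cv_ext0 q₀ h1
    rcases h.comp s.1 _ ha.1 _ 𝒰 _ Prod.snd hc ((h.adm _ ha.1 _ _ _ hc).and h2)
      with ⟨x₀, h3, h4⟩ | ⟨s', x₀, h3, h4, h5⟩
    · exact .inr ⟨x₀, h3, tendsto_iInf.2 fun i => tendsto_comap_iff.2 (h4 s.2 i)⟩
    · have hr : D.Reg _ x₀ := fun j => hg ⟨s', j⟩ h3 x₀ h4
      by_cases hf : D.face s'
      · exact .inl ((h5 hf hr).mono fun i hi => hi s.2)
      · exact (h.kill s' _ x₀ hf ha.1 h4 hr).elim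

theorem low : Low.Ax ⟨D.Adm, D.G⟩ where
  le _ hq := hq.1
  ex O hO q₀ h0 h1 := by
    classical
    have := h.fin
    have := h.finJ
    obtain ⟨J, -, p, h2, h3⟩ := (h.hyp hO q₀).exists_good (J₀ := ∅) (p₀ := 0) (by
      show D.Adm (q₀ + ext0 (∅ : Finset W) 0) ∧ O (q₀ + ext0 (∅ : Finset W) 0)
      rw [add_ext0]; exact ⟨h0, h1⟩)
    exact ⟨_, h2.2, h2.1, fun s x hx j => h3 ⟨s, j⟩ x hx⟩
  op := by
    classical
    have := h.fin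
    have := h.finJ
    rintro q₀ ⟨ha, hg⟩ ι l q hq
    have h0 := h.adm q₀ ha ι l q hq
    obtain ⟨J, hJ, hl⟩ := hq
    have e' : ∀ i, q₀ + ext0 J (fun w : J => q i w - q₀ w) = q i := fun i => by
      ext w
      by_cases hw : w ∈ J
      · have := Fin93.ext0_mem (fun w : J => q i w - q₀ w) ⟨w, hw⟩
        simp only [Finsupp.add_apply, this]; ring
      · simp only [Finsupp.add_apply, Fin93.ext0_not_mem _ hw, hJ i w hw, add_zero]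
    have h1 := (h.hyp isOp_true q₀).good_all_open (J := J) (p₀ := 0)
      (by show D.Adm (q₀ + ext0 J 0) ∧ True; rw [add_ext0]; exact ⟨ha, trivial⟩)
      (fun s x hx => by
        have hx' : D.Sol s.1 (q₀ + ext0 J 0) x := hx
        show D.RegJ s.2 (q₀ + ext0 J 0) x
        rw [add_ext0] at hx' ⊢; exact hg _ x hx' s.2)
    have h2 : Tendsto (fun i => fun w : J => q i w - q₀ w) l (𝓝 0) :=
      tendsto_pi_nhds.2 fun w => tendsto_sub_nhds_zero_iff.2 (hl w)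
    filter_upwards [h0, h2.eventually h1] with i h3 hi
    refine ⟨h3, fun s x hx j => ?_⟩
    rw [← e' i] at hx ⊢; exact hi ⟨s, j⟩ x hx

/-- at a good perturbation only faces occur -/
theorem face_of {q : W →₀ ℝ} (hq : D.G q) {s : D.S} {x : D.X s} (hx : D.Sol s q x) : D.face s := by
  by_contra hf
  exact h.kill s q x hf hq.1 hx (hq.2 s x hx)

end Ax

/-- a part of negative index kills -/
theorem not_reg_of_neg {s : D.S} {j : D.J s} {q : W →₀ ℝ} {x : D.X s}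
    (h : ∀ i, (D.P s j i).Ax D.Adm) (ha : D.Adm q) (hx : ∀ i, (D.P s j i).Sol q (D.pr i x))
    (hn : ∀ i, (D.P s j i).n < 0) : ¬D.Reg q x := fun hr => by
  obtain ⟨i, hi⟩ := hr j
  exact absurd ((h i).nonneg ha (hx i) hi) (not_le.2 (hn i))

end Idl

/-! ### cells and faces -/

theorem Cx.Ax.tendsto_par {W A : Type} [DecidableEq A] {K : Cx W A} {Adm : (W →₀ ℝ) → Prop}
    {σ : Finset A} (h : K.Ax Adm σ) {ι : Type} {l : Filter ι} {u : ι → (K.Q σ).X} {x₀ : (K.Q σ).X}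
    (hu : ∀ᶠ i in l, (K.Q σ).In (u i)) (hl : Tendsto u l ((K.Q σ).Near x₀)) (a : A) :
    Tendsto (fun i => K.par (u i) a) l (𝓝 (K.par x₀ a)) := fun N hN => by
  have h3 := (K.Q σ).tendsto_near.1 hl _
    ((K.tc σ a x₀.1).continuous.continuousAt.preimage_mem_nhds hN)
  rw [mem_map]
  filter_upwards [hu, h3] with i h1 ⟨y, hy, he⟩
  show K.par (u i) a ∈ N
  rw [h.tc_e a _ _ h1 he]
  exact hy

/-- cells `𝒦`, `G` = good for the lower strata, face objects `Fc σ a` (the wall `a` is broken) -/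
structure Asm (W A : Type) [DecidableEq A] : Type 1 extends Cx W A, Low W where
  𝒦 : Set (Finset A)
  Fc : Finset A → A → Type
  FSol : ∀ {σ a}, (W →₀ ℝ) → Fc σ a → Prop
  feq : ∀ σ a, Setoid (Fc σ a)
  Deg : ∀ {σ a} {ι : Type}, Ultrafilter ι → (ι → (Q σ).X) → Fc σ a → Prop

namespace Asm
variable {W A : Type} [DecidableEq A] (K : Asm W A)

/-- good for all strata -/
def GG (q : W →₀ ℝ) : Prop := K.G q ∧ ∀ σ ∈ K.𝒦, ∀ x ∈ K.M σ q, (K.Q σ).Reg q x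

/-- classes of face objects -/
abbrev FCl (q : W →₀ ℝ) (σ : Finset A) (a : A) : Type :=
  Quotient ((K.feq σ a).comap (Subtype.val : {y : K.Fc σ a // K.FSol q y} → _))

/-- the number of face objects -/
def zf (q : W →₀ ℝ) (σ : Finset A) (a : A) : ℕ := Nat.card (K.FCl q σ a)

structure Ax : Prop where
  fin : K.𝒦.Finite
  low : K.toLow.Ax
  cx : ∀ σ ∈ K.𝒦, K.toCx.Ax K.Adm σ
  down : ∀ σ ∈ K.𝒦, ∀ a, σ.erase a ∈ K.𝒦
  dens : ∀ σ ∈ K.𝒦, ∀ q, K.Adm q → ∀ x ∈ K.M σ q, (K.Q σ).Reg q x ∨ ∃ J, (K.Q σ).Onto q x J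
  comp : ∀ σ ∈ K.𝒦, ∀ q₀, K.G q₀ → ∀ (ι : Type) (𝒰 : Ultrafilter ι) (q : ι → W →₀ ℝ)
    (u : ι → (K.Q σ).X), St.Cv (𝒰 : Filter ι) q q₀ →
    (∀ᶠ i in (𝒰 : Filter ι), K.Adm (q i) ∧ u i ∈ K.M σ (q i)) →
    (∃ x₀ ∈ K.M σ q₀, Tendsto u 𝒰 ((K.Q σ).Near x₀)) ∨
      ∃ a ∈ σ, ∃ y : K.Fc σ a, K.FSol q₀ y ∧ K.Deg 𝒰 u y
  deg_one : ∀ σ ∈ K.𝒦, ∀ a ∈ σ, ∀ (ι : Type) (𝒰 : Ultrafilter ι) u (y : K.Fc σ a), K.Deg 𝒰 u y →
    Tendsto (fun i => K.par (u i) a) 𝒰 (𝓝 1)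
  deg_lt : ∀ σ ∈ K.𝒦, ∀ a ∈ σ, ∀ (ι : Type) (𝒰 : Ultrafilter ι) u (y : K.Fc σ a), K.Deg 𝒰 u y →
    ∀ b ∈ σ.erase a, ∃ c < 1, ∀ᶠ i in (𝒰 : Filter ι), K.par (u i) b ≤ c
  deg_congr : ∀ σ ∈ K.𝒦, ∀ a ∈ σ, ∀ (𝒰 : Ultrafilter ℝ) u u' (y : K.Fc σ a), K.Deg 𝒰 u y →
    (∀ᶠ i in (𝒰 : Filter ℝ), (K.Q σ).In (u i) ∧ (K.Q σ).eqv (u i) (u' i)) → K.Deg 𝒰 u' y
  deg_eqv : ∀ σ ∈ K.𝒦, ∀ a ∈ σ, ∀ q, K.G q → ∀ (𝒰 : Ultrafilter ℝ) u (y y' : K.Fc σ a),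
    K.FSol q y → K.FSol q y' → K.Deg 𝒰 u y → (K.Deg 𝒰 u y' ↔ K.feq σ a y y')
  nof : ∀ σ ∈ K.𝒦, K.n₀ + σ.card ≤ 0 → ∀ a ∈ σ, ∀ q, K.G q → ∀ y : K.Fc σ a, ¬K.FSol q y
  ffin : ∀ σ ∈ K.𝒦, ∀ a ∈ σ, ∀ q, K.G q → Finite (K.FCl q σ a)
  gl_reg : ∀ σ ∈ K.𝒦, ∀ a ∈ σ, ∀ q₀, K.G q₀ → ∀ (ι : Type) (𝒰 : Ultrafilter ι) (q : ι → W →₀ ℝ) u
    (y : K.Fc σ a), St.Cv (𝒰 : Filter ι) q q₀ →
    (∀ᶠ i in (𝒰 : Filter ι), K.Adm (q i) ∧ u i ∈ K.M σ (q i)) → K.FSol q₀ y → K.Deg 𝒰 u y →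
    ∀ᶠ i in (𝒰 : Filter ι), K.Tr (q i) (u i) a
  gl_ex : ∀ σ ∈ K.𝒦, ∀ a ∈ σ, ∀ q, K.G q → ∀ y : K.Fc σ a, K.FSol q y →
    ∀ 𝒰 : Ultrafilter ℝ, (𝒰 : Filter ℝ) ≤ 𝓝[<] 1 → ∃ u,
      (∀ᶠ T in (𝒰 : Filter ℝ), u T ∈ K.M σ q ∧ K.par (u T) a = T) ∧ K.Deg 𝒰 u y
  gl_uniq : ∀ σ ∈ K.𝒦, ∀ a ∈ σ, ∀ q, K.G q → ∀ y : K.Fc σ a, K.FSol q y →
    ∀ 𝒰 : Ultrafilter ℝ, (𝒰 : Filter ℝ) ≤ 𝓝[<] 1 → ∀ u u',
      (∀ᶠ T in (𝒰 : Filter ℝ), u T ∈ K.M σ q ∧ K.par (u T) a = T) →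
      (∀ᶠ T in (𝒰 : Filter ℝ), u' T ∈ K.M σ q ∧ K.par (u' T) a = T) →
      K.Deg 𝒰 u y → K.Deg 𝒰 u' y → ∀ᶠ T in (𝒰 : Filter ℝ), (K.Q σ).eqv (u T) (u' T)

/-- the top strata -/
def top : St W where
  S := K.𝒦
  X σ := (K.Q σ).X
  Sol σ q x := x ∈ K.M σ q
  P σ := K.Q σ
  pr x := x
  rank _ := 0
  Adm := K.G

variable {K} {σ : Finset A} {q : W →₀ ℝ}
namespace Ax
variable (h : K.Ax)
include h

theorem isOp_G : St.IsOp K.G := h.low.op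

theorem adm (hq : K.G q) : K.Adm q := h.low.le q hq

theorem top : K.top.Ax where
  fin := h.fin
  ax σ := ax_mono (h.cx σ.1 σ.2).ax h.low.le
  adm := h.isOp_G
  sol _ _ _ _ hx := hx.1
  dens σ q x ha hx := h.dens σ.1 σ.2 q (h.adm ha) x hx
  comp σ q₀ ha _ ι 𝒰 q u hq hu := by
    have hu' := hu.mono fun i hi => (⟨h.adm hi.1, hi.2⟩ : K.Adm (q i) ∧ u i ∈ K.M σ.1 (q i))
    rcases h.comp σ.1 σ.2 q₀ ha ι 𝒰 q u hq hu' with h1 | ⟨a, ha', y, h1, h2⟩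
    · exact .inr h1
    · exact .inl ((h.gl_reg σ.1 σ.2 a ha' q₀ ha ι 𝒰 q u y hq hu' h1 h2).mono fun i hi => hi.reg)

omit h in
theorem gg_iff : K.GG q ↔ K.top.Adm q ∧ ∀ s, K.top.Good s q :=
  and_congr_right fun _ => ⟨fun h s => h s.1 s.2, fun h σ hσ => h ⟨σ, hσ⟩⟩

theorem isOp_GG : St.IsOp K.GG := by
  have := h.top.isOp_good
  simpa only [← gg_iff] using this

/-- **A good perturbation exists in every stage-open set.** -/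
theorem exists_good {O : (W →₀ ℝ) → Prop} (hO : St.IsOp O) {q₀ : W →₀ ℝ} (h0 : K.Adm q₀)
    (h1 : O q₀) : ∃ q, O q ∧ K.GG q := by
  obtain ⟨q₁, h3, h4⟩ := h.low.ex O hO q₀ h0 h1
  obtain ⟨q, h5, h6, h7⟩ := h.top.exists_good hO (q₀ := q₁) h4 h3
  exact ⟨q, h6, gg_iff.2 ⟨h5, h7⟩⟩

/-- negative index -/
theorem empty (hq : K.GG q) (hσ : σ ∈ K.𝒦) (hn : K.n₀ + σ.card < 0) : K.M σ q = ∅ :=
  (h.cx σ hσ).empty (h.adm hq.1) hn (hq.2 σ hσ)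

theorem comp' (hq : K.G q) (hσ : σ ∈ K.𝒦) {ι : Type} (𝒰 : Ultrafilter ι) (u : ι → (K.Q σ).X)
    (hu : ∀ᶠ i in (𝒰 : Filter ι), u i ∈ K.M σ q) :
    (∃ x₀ ∈ K.M σ q, Tendsto u 𝒰 ((K.Q σ).Near x₀)) ∨
      ∃ a ∈ σ, ∃ y : K.Fc σ a, K.FSol q y ∧ K.Deg 𝒰 u y :=
  h.comp σ hσ q hq ι 𝒰 _ u (St.cv_const _ q) (hu.mono fun _ hi => ⟨h.adm hq, hi⟩)

theorem cpt (hq : K.G q) (hσ : σ ∈ K.𝒦) (hn : K.n₀ + σ.card ≤ 0) : (K.Q σ).Cpt (K.M σ q) :=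
  fun _ 𝒰 u hu => (h.comp' hq hσ 𝒰 u hu).resolve_right fun ⟨a, ha, y, hy, _⟩ =>
    h.nof σ hσ hn a ha q hq y hy

/-- index zero -/
theorem finite (hq : K.GG q) (hσ : σ ∈ K.𝒦) (hn : K.n₀ + σ.card = 0) :
    Finite ((K.Q σ).Cl (K.M σ q)) :=
  (h.cx σ hσ).finite (h.adm hq.1) hn (h.cpt hq.1 hσ hn.le) (hq.2 σ hσ)

theorem cpt_le (hq : K.G q) (hσ : σ ∈ K.𝒦) {T : ℝ} (hT : T < 1) :
    (K.Q σ).Cpt {x | x ∈ K.M σ q ∧ ∀ a ∈ σ, K.par x a ≤ T} := fun ι 𝒰 u hu => by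
  rcases h.comp' hq hσ 𝒰 u (hu.mono fun _ hi => hi.1) with ⟨x₀, h1, h2⟩ | ⟨a, ha, y, -, h2⟩
  · exact ⟨x₀, ⟨h1, fun a ha => le_of_tendsto ((h.cx σ hσ).tendsto_par
      (hu.mono fun _ hi => hi.1.1.1) h2 a) (hu.mono fun _ hi => hi.2 a ha)⟩, h2⟩
  · exact absurd (le_of_tendsto (h.deg_one σ hσ a ha ι 𝒰 u y h2) (hu.mono fun _ hi => hi.2 a ha))
      (not_le.2 hT)

/-- a family with `t a → 1` degenerates to a face object -/
theorem deg_of (hq : K.G q) (hσ : σ ∈ K.𝒦) {a : A} (ha : a ∈ σ) {𝒰 : Ultrafilter ℝ}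
    (h𝒰 : (𝒰 : Filter ℝ) ≤ 𝓝[<] 1) {u : ℝ → (K.Q σ).X}
    (hu : ∀ᶠ T in (𝒰 : Filter ℝ), u T ∈ K.M σ q ∧ K.par (u T) a = T) :
    ∃ y : K.Fc σ a, K.FSol q y ∧ K.Deg 𝒰 u y := by
  have h1 : Tendsto (fun T => K.par (u T) a) 𝒰 (𝓝 1) :=
    (tendsto_id'.2 (h𝒰.trans nhdsWithin_le_nhds)).congr' (hu.mono fun _ hT => hT.2.symm)
  rcases h.comp' hq hσ 𝒰 u (hu.mono fun _ hi => hi.1) with ⟨x₀, h2, h3⟩ | ⟨b, hb, y, h2, h3⟩
  · exact absurd (tendsto_nhds_unique ((h.cx σ hσ).tendsto_par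
      (hu.mono fun _ hi => hi.1.1.1) h3 a) h1) (h2.2 a ha).2.ne
  · by_cases e : a = b
    · subst e; exact ⟨y, h2, h3⟩
    · obtain ⟨c, h4, h5⟩ := h.deg_lt σ hσ b hb ℝ 𝒰 u y h3 a (Finset.mem_erase.2 ⟨e, ha⟩)
      exact absurd (le_of_tendsto h1 h5) (not_le.2 h4)

omit h in
theorem ev_of {a : A} {𝒰 : Ultrafilter ℝ} {p : ℝ → (K.Q σ).X → Prop}
    (hp : ∀ u : ℝ → (K.Q σ).X, (∀ᶠ T in (𝒰 : Filter ℝ), u T ∈ K.M σ q ∧ K.par (u T) a = T) →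
      ∀ᶠ T in (𝒰 : Filter ℝ), p T (u T)) :
    ∀ᶠ T in (𝒰 : Filter ℝ), ∀ x ∈ K.M σ q, K.par x a = T → p T x := by
  by_contra hn
  have h1 : ∀ᶠ T in (𝒰 : Filter ℝ), ∃ x, (x ∈ K.M σ q ∧ K.par x a = T) ∧ ¬p T x := by
    filter_upwards [Ultrafilter.eventually_not.2 hn] with T hT
    simpa only [not_forall, exists_prop, and_assoc] using hT
  obtain ⟨T₀, x₁, -⟩ := h1.exists
  have : Nonempty (K.Q σ).X := ⟨x₁⟩
  choose! u hu using fun T (hT : ∃ x, (x ∈ K.M σ q ∧ K.par x a = T) ∧ ¬p T x) => hT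
  obtain ⟨T, h2, h3⟩ := (h1.and (hp u (h1.mono fun T hT => (hu T hT).1))).exists
  exact (hu T h2).2 h3

theorem up (hq : K.G q) (hσ : σ ∈ K.𝒦) {a : A} (ha : a ∈ σ) : ∀ᶠ T in 𝓝[<] (1 : ℝ),
    ∀ x ∈ K.M σ q, K.par x a = T → K.Tr q x a ∧ ∀ b ∈ σ.erase a, K.par x b < T := by
  refine mem_iff_ultrafilter.2 fun 𝒰 h𝒰 => ev_of fun u hu => ?_
  obtain ⟨y, h1, h2⟩ := h.deg_of hq hσ ha h𝒰 hu
  refine (h.gl_reg σ hσ a ha q hq ℝ 𝒰 _ u y (St.cv_const _ q)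
    (hu.mono fun _ hi => ⟨h.adm hq, hi.1⟩) h1 h2).and ((eventually_all_finset _).2 fun b hb => ?_)
  obtain ⟨c, h3, h4⟩ := h.deg_lt σ hσ a ha ℝ 𝒰 u y h2 b hb
  filter_upwards [h4, (h𝒰.trans nhdsWithin_le_nhds) (Ioi_mem_nhds h3)] with T h5 h6
  exact h5.trans_lt h6

/-- near the end the facet count is the number of face objects -/
theorem zT_eq (hq : K.G q) (hσ : σ ∈ K.𝒦) {a : A} (ha : a ∈ σ) :
    ∀ᶠ T in 𝓝[<] (1 : ℝ), K.zT q σ a T = K.zf q σ a := by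
  refine mem_iff_ultrafilter.2 fun 𝒰 h𝒰 => ?_
  have := h.ffin σ hσ a ha q hq
  choose u hu hd using fun c : K.FCl q σ a => h.gl_ex σ hσ a ha q hq c.out.1 c.out.2 𝒰 h𝒰
  have h1 : ∀ᶠ T in (𝒰 : Filter ℝ), ∀ c c', (K.Q σ).eqv (u c T) (u c' T) → c = c' := by
    refine eventually_all.2 fun c => eventually_all.2 fun c' => ?_
    by_cases e : ∀ᶠ T in (𝒰 : Filter ℝ), (K.Q σ).eqv (u c T) (u c' T)
    · have h2 := h.deg_congr σ hσ a ha 𝒰 _ _ _ (hd c) (((hu c).mono fun _ hT => hT.1.1.1).and e)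
      have h3 := (h.deg_eqv σ hσ a ha q hq 𝒰 _ _ _ c.out.2 c'.out.2 h2).1 (hd c')
      exact Eventually.of_forall fun _ _ => Quotient.out_equiv_out.1 h3
    · exact (Ultrafilter.eventually_not.2 e).mono fun T hT h' => (hT h').elim
  have h2 : ∀ᶠ T in (𝒰 : Filter ℝ), ∀ x ∈ K.M σ q, K.par x a = T →
      ∃ c, (K.Q σ).eqv (u c T) x := ev_of fun v hv => by
    obtain ⟨y, h3, h4⟩ := h.deg_of hq hσ ha h𝒰 hv
    let c : K.FCl q σ a := Quotient.mk _ ⟨y, h3⟩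
    have h5 : K.feq σ a y c.out.1 := (K.feq σ a).symm (Quotient.mk_out (s := (K.feq σ a).comap _) _)
    exact (h.gl_uniq σ hσ a ha q hq _ c.out.2 𝒰 h𝒰 _ _ (hu c) hv (hd c)
      ((h.deg_eqv σ hσ a ha q hq 𝒰 _ _ _ h3 c.out.2 h4).2 h5)).mono fun T hT => ⟨c, hT⟩
  filter_upwards [h1, h2, eventually_all.2 hu] with T h3 h4 h5
  refine (Nat.card_congr (Equiv.ofBijective (fun c : K.FCl q σ a =>
    (Quotient.mk _ ⟨u c T, h5 c⟩ : (K.Q σ).Cl {x | x ∈ K.M σ q ∧ K.par x a = T}))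
    ⟨fun c c' e => h3 c c' (by have := Quotient.exact e; exact this), fun m => ?_⟩)).symm
  obtain ⟨x, rfl⟩ := Quotient.mk_surjective m
  obtain ⟨c, hc⟩ := h4 x x.2.1 x.2.2
  exact ⟨c, Quotient.sound hc⟩

/-- **Stokes.** -/
theorem stokes (hq : K.GG q) (hσ : σ ∈ K.𝒦) (hn : K.n₀ + σ.card = 1) :
    Even (∑ a ∈ σ, K.z q (σ.erase a) + ∑ a ∈ σ, K.zf q σ a) := by
  have hc : ∀ {τ : Finset A} {a : A}, a ∈ τ → ((τ.erase a).card : ℤ) = τ.card - 1 := fun ha => by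
    rw [← Finset.card_erase_add_one ha]; push_cast; ring
  have h1 := (eventually_all_finset σ).2 fun a ha => (h.cx _ (h.down σ hσ a)).lt_of_cpt
    (h.cpt hq.1 (h.down σ hσ a) (by rw [hc ha]; omega))
  have h2 := (eventually_all_finset σ).2 fun a ha => h.up hq.1 hσ ha
  have h3 := (eventually_all_finset σ).2 fun a ha => h.zT_eq hq.1 hσ ha
  obtain ⟨T, ⟨⟨h4, h5⟩, h6⟩, h7⟩ :=
    (((h1.and h2).and h3).and (Ioo_mem_nhdsLT (zero_lt_one' ℝ))).exists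
  rw [← Finset.sum_congr rfl h6]
  refine (h.cx σ hσ).stokes (h.adm hq.1) hn h7.1 h7.2 (h.cpt_le hq.1 hσ h7.2) (hq.2 σ hσ)
    (fun a ha x hx => ⟨hq.2 _ (h.down σ hσ a) x hx, fun b hb =>
      ⟨(hx.2 b hb).1.lt_of_ne' fun e => ?_, h4 a ha x hx b hb⟩⟩) h5
  have hx' := h.cx _ (h.down σ hσ a)
  obtain ⟨y, rfl⟩ := hx'.inc_surj b hb x hx.1.1 e
  have h8 := (hx'.inc_mem hb).1 hx
  rw [h.empty hq (h.down _ (h.down σ hσ a) b) (by rw [hc hb, hc ha]; omega)] at h8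
  exact h8

end Ax

/-- **One perturbation for finitely many worlds.** -/
theorem exists_good_all {I : Type} [Finite I] {A : I → Type} [∀ i, DecidableEq (A i)]
    {K : ∀ i, Asm W (A i)} (h : ∀ i, (K i).Ax) {O : (W →₀ ℝ) → Prop} (hO : St.IsOp O)
    {q₀ : W →₀ ℝ} (h0 : O q₀) (ha : ∀ i q, O q → (K i).Adm q) : ∃ q, O q ∧ ∀ i, (K i).GG q :=
  St.exists_all (fun i => (h i).isOp_GG) hO h0 fun i _ hO' q h1 h2 =>
    (h i).exists_good hO' (ha i q h1) h2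

end Asm
end Crest.Agent.X212.An
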