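import Crest.Agent.X212.An.Job
import Crest.Agent.X212.Nk89.Idr
import Crest.Agent.X212.M.Coef
import Crest.Agent.X212.Wrd81.Exp

-- ▼ part X212/An/Kit
section

/-!
# Row 212, layer AN: models, strata and gluing data of a job; the assembly

`Mdl` : Banach models of the cells.  `Stra c` : strata of the ideal objects on `Z c`.
`Kit.Gl σ a` : gluing at the wall `a`.  Output: `Kit.Ax.gg`, `Kit.Ax.stokes`.
-/

set_option autoImplicit false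
set_option linter.unusedSectionVars false
noncomputable section
open scoped Manifold ContDiff Topology InnerProductSpace
open MeasureTheory Set Function Filter

namespace Crest.Agent.X212.An
open M Nd18 Mod61
open Nk89 (Idr RNear)

theorem card_quot {α β : Type} (s : Setoid α) {r : β → β → Prop} (hr : Equivalence r) (f : α → β)
    (h : ∀ x y, s x y ↔ r (f x) (f y)) (hs : ∀ y, ∃ x, r (f x) y) :
    Nonempty (Quotient s ≃ Quot r) :=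
  ⟨Equiv.ofBijective (Quotient.map (sb := ⟨r, hr⟩) f fun x y => (h x y).1) ⟨fun a b => by
    obtain ⟨x, rfl⟩ := Quotient.mk_surjective a
    obtain ⟨y, rfl⟩ := Quotient.mk_surjective b
    exact fun e => Quotient.sound ((h x y).2 (Quotient.exact (s := ⟨r, hr⟩) e)), fun b => by
    obtain ⟨y, rfl⟩ := Quot.exists_rep b
    obtain ⟨x, hx⟩ := hs y
    exact ⟨Quotient.mk _ x, Quot.sound hx⟩⟩⟩

/-- the ball round `q₀` for the weights `N` -/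
def Ball {Wi : Type} (N : Wi → ℝ) (q₀ q : Wi →₀ ℝ) : Prop := (q - q₀).sum (fun w a => |a| * N w) < 1

theorem ball_self {Wi : Type} (N : Wi → ℝ) (q₀ : Wi →₀ ℝ) : Ball N q₀ q₀ := by simp [Ball]

theorem isOp_ball {Wi : Type} (N : Wi → ℝ) (q₀ : Wi →₀ ℝ) : St.IsOp (Ball N q₀) := by
  classical
  rintro q₁ h1 ι l q ⟨S, hS, hl⟩
  have e : ∀ p : Wi →₀ ℝ, (∀ w, w ∉ S → p w = q₁ w) → (p - q₀).sum (fun w a => |a| * N w) =
      ∑ w ∈ S ∪ (q₁ - q₀).support, |p w - q₀ w| * N w := fun p hp =>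
    Finsupp.sum_of_support_subset _ (fun w hw => by
      by_cases h : w ∈ S
      · exact Finset.mem_union_left _ h
      · refine Finset.mem_union_right _ ?_
        simpa only [Finsupp.mem_support_iff, Finsupp.sub_apply, hp w h] using hw) _ (by simp)
  simp only [Ball, e _ (hS _)]
  rw [Ball, e _ fun _ _ => rfl] at h1
  exact (tendsto_finset_sum _ fun w _ => ((hl w).sub_const _).abs.mul_const _).eventually_lt_const h1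

variable {Wi : Type} {X : Mf 4} {A κ lam : Type} [Fintype A] [Fintype κ] [Fintype lam]
  [DecidableEq lam] {M : Mark X A κ} {W : World M} {N : ML M lam}

namespace Job
variable {Λ : Lns W N} {A' h : Type} [Fintype A'] [DecidableEq A'] [Fintype h] {r n : ℕ}
  {J : Job Wi Λ A' h r n} {c : M.Cl} {σ : Cel A'} {q : Wi →₀ ℝ}

/-! ### isomorphism is an equivalence -/

/-- admissible objects -/
def Obc.Ok (y : J.Obc c) : Prop := Eqv71.Ad0 y.x (J.B c) (J.G c y.s) ∧ J.Θ y.s ∈ M.O c.1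

theorem cl_dom (J : Job Wi Λ A' h r n) : cl σ ⊆ J.dom σ := fun _ hs => ⟨hs.1, fun a _ => (hs.2 a).2⟩

theorem Sol.par (hJ : J.OK) (hσ : σ ∈ J.𝒦) {y : J.Obc c} (h : Sol σ q y) :
    (J.Θ y.s).2 ∈ M.sys.Par := hJ.par σ hσ _ (J.cl_dom h.cell)

theorem Sol.br (hJ : J.OK) (hσ : σ ∈ J.𝒦) {y : J.Obc c} (h : Sol σ q y) : J.Θ y.s ∈ M.Br c.1 :=
  ⟨h.par hJ hσ, h.inf.ge⟩

theorem Sol.ok (hJ : J.OK) (hσ : σ ∈ J.𝒦) {y : J.Obc c} (h : Sol σ q y) : y.Ok :=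
  ⟨Eqv71.ad0 h.sol.toAdm, h.inf ▸ Mark.mem_O_cOf (h.par hJ hσ)⟩

theorem Sol.act (hJ : J.OK) (hσ : σ ∈ J.𝒦) {y : J.Obc c} (h : Sol σ q y) {a : A} (ha : a ∈ cylW c)
    (b : Bool) : Act J.m c a (some b) (J.Θ y.s) := ⟨ha.2, h.br hJ hσ, (h.ok hJ hσ).2, ha.1⟩

theorem Sol.H_eq {y : J.Obc c} (h : Sol σ q y) (hl : y.l = 0) : y.H = J.unc c :=
  h.sub.antisymm (diff_eq_empty.1 ((ncard_eq_zero (toFinite _)).1 (Nat.le_zero.1 (hl ▸ h.drop))))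

theorem Obc.Ok.refl {y : J.Obc c} (h : y.Ok) : Iso y y :=
  ⟨rfl, Cnt93.isoC_refl (Λ.B_ok _ _) (Λ.G_ok _ h.2) h.1⟩

theorem Iso.symm {y y' : J.Obc c} (e : Iso y y') (h : y.Ok) (h' : y'.Ok) : Iso y' y :=
  ⟨e.1.symm, e.1 ▸ Cnt93.isoC_symm (Λ.B_ok _ _) (Λ.G_ok _ h.2) h.1 (e.1 ▸ h'.1) e.2⟩

theorem Iso.trans {y y' y'' : J.Obc c} (e : Iso y y') (e' : Iso y' y'') (h : y.Ok) (h' : y'.Ok)
    (h'' : y''.Ok) : Iso y y'' :=
  ⟨e.1.trans e'.1, Cnt93.isoC_trans (Λ.B_ok _ _) (Λ.G_ok _ h.2) h.1 (e.1 ▸ h'.1)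
    ((e.1.trans e'.1) ▸ h''.1) e.2 (e.1 ▸ e'.2)⟩

theorem equiv_TS (hJ : J.OK) (hσ : σ ∈ J.𝒦) : Equivalence fun y y' : J.TS σ q c => Iso y.1 y'.1 :=
  ⟨fun y => (y.2.1.ok hJ hσ).refl, fun {y y'} e => e.symm (y.2.1.ok hJ hσ) (y'.2.1.ok hJ hσ),
    fun {y y' y''} e e' => e.trans e' (y.2.1.ok hJ hσ) (y'.2.1.ok hJ hσ) (y''.2.1.ok hJ hσ)⟩

variable (J c) in
/-- isomorphism as a setoid -/
def feq : Setoid (J.Obc c) where
  r y y' := y = y' ∨ y.Ok ∧ y'.Ok ∧ Iso y y'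
  iseqv := ⟨fun _ => .inl rfl, fun e => e.imp Eq.symm fun e => ⟨e.2.1, e.1, e.2.2.symm e.1 e.2.1⟩,
    fun e e' => by
      rcases e with rfl | e
      · exact e'
      rcases e' with rfl | e'
      · exact .inr e
      · exact .inr ⟨e.1, e'.2.1, e.2.2.trans e'.2.2 e.1 e'.1 e'.2.1⟩⟩

theorem feq_iff {y y' : J.Obc c} (h : y.Ok) (h' : y'.Ok) : J.feq c y y' ↔ Iso y y' :=
  ⟨fun e => e.elim (fun e => e ▸ h.refl) fun e => e.2.2, fun e => .inr ⟨h, h', e⟩⟩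

theorem tight_c0 {y : J.Obc M.c0} (h : y.l = 0) : y.Tight := ⟨h, fun _ ha => ha.1.elim⟩

theorem mem_wa {a : A'} : a ∈ J.wa σ ↔ σ a = none ∧ (J.hd a).isSome := by simp [wa]

theorem mem_wb {b : A' × Bool} : b ∈ J.wb σ ↔ σ b.1 = none ∧ (b.2 → (J.hd b.1).isNone) := by
  simp [wb]

theorem cf_nonempty {a : A'} (ha : a ∈ J.wa σ) : (J.cf a).1.Nonempty :=
  Option.isSome_iff_exists.1 (mem_wa.1 ha).2

theorem cf_sub (a : A') : (J.cf a).1.Subsingleton := fun _ hx _ hy =>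
  Option.some.inj ((show J.hd a = _ from hx).symm.trans hy)

theorem eq_c0 {c₀ : M.Cl} (h : c.1 ⊂ c₀.1) (h₀ : c₀.1.Subsingleton) : c = M.c0 :=
  Subtype.ext (eq_empty_of_forall_notMem fun _ hx =>
    h.2 fun _ hy => h₀ (h.1 hx) hy ▸ hx)

theorem cf_ne {a : A'} (ha : a ∈ J.wa σ) : J.cf a ≠ M.c0 := fun e =>
  (cf_nonempty ha).ne_empty (congrArg Subtype.val e)

/-! ### models of the cells -/

variable (J) in
/-- Banach models of the top strata -/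
structure Mdl : Type 1 where
  top : J.Obc M.c0 → Prop
  Q : Cel A' → Prob Wi
  ob : ∀ {σ}, (Q σ).X → J.Obc M.c0
  tc : ∀ σ, A' → ∀ o, (Q σ).C o → ℝ
  inc : ∀ σ b, (Q (fc σ b)).X → (Q σ).X
  n₀ : ℤ

namespace Mdl
variable (D : J.Mdl)

/-- the complex of cells -/
@[reducible] def gx : Gx Wi (Cel A') A' (A' × Bool) where
  Q := D.Q
  wa := J.wa
  wb := J.wb
  ta := D.tc
  tb σ b o v := if b.2 then 1 - D.tc σ b.1 o v else D.tc σ b.1 o v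
  fc := fc
  inc := D.inc

/-- top objects -/
def Top (y : J.Obc c) : Prop := ∃ e : c = M.c0, D.top (e ▸ y)

theorem top_iff {y : J.Obc M.c0} : D.Top y ↔ D.top y := ⟨fun ⟨_, h⟩ => h, fun h => ⟨rfl, h⟩⟩

theorem not_top (hc : c ≠ M.c0) (y : J.Obc c) : ¬D.Top y := fun ⟨e, _⟩ => hc e

/-- the conditions under which `Z c` may carry a face of `σ` -/
def Fa (σ : Cel A') (c : M.Cl) : Prop :=
  D.n₀ + dim σ = 1 ∧ c.1 ⊆ cylW c ∧ ∃ a ∈ J.wa σ, c = J.cf a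

/-- LEAF MDL -/
structure Ax (Adm : (Wi →₀ ℝ) → Prop) (σ : Cel A') : Prop where
  cx : D.gx.Ax Adm σ
  n : (D.Q σ).n = D.n₀ + dim σ
  l0 : ∀ y, D.top y → y.l = 0
  sol : ∀ q, Adm q → ∀ x ∈ D.gx.M σ q, Sol σ q (D.ob x) ∧ D.top (D.ob x)
  pt : ∀ q, Adm q → ∀ y, Sol σ q y → D.top y → ∃ x ∈ D.gx.M σ q, Iso (D.ob x) y
  eqv : ∀ q, Adm q → ∀ x ∈ D.gx.M σ q, ∀ x' ∈ D.gx.M σ q,
    ((D.Q σ).eqv x x' ↔ Iso (D.ob x) (D.ob x'))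
  str : ∀ q₀, Adm q₀ → ∀ (α : Type) (𝒰 : Ultrafilter α) (q : α → Wi →₀ ℝ) (u : α → (D.Q σ).X) y₀,
    St.Cv (𝒰 : Filter α) q q₀ → (∀ᶠ i in (𝒰 : Filter α), Adm (q i) ∧ u i ∈ D.gx.M σ (q i)) →
    Sol σ q₀ y₀ → D.top y₀ → Str 𝒰 (fun i => D.ob (u i)) y₀ →
    ∃ x₀ ∈ D.gx.M σ q₀, Tendsto u 𝒰 ((D.Q σ).Near x₀)
  dens : ∀ q, Adm q → ∀ x ∈ D.gx.M σ q, (D.Q σ).Reg q x ∨ ∃ S, (D.Q σ).Onto q x S

end Mdl

/-! ### strata -/

variable (J c) in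
/-- finitely many strata of the ideal objects on `Z c`, with their parts -/
structure Stra : Type 1 where
  S : Type
  en : S → ℝ
  wt : S → ℕ
  mem : S → J.Obc c → Prop
  face : S → Prop
  Jp : S → Type
  Ic : ∀ s, Jp s → Type
  P : ∀ s j, Ic s j → Prob Wi
  rep : ∀ {s j} (i : Ic s j), J.Obc c → (P s j i).X → Prop

/-- all parts are regular -/
def Stra.Reg (T : J.Stra c) (s : T.S) (q : Wi →₀ ℝ) (y : J.Obc c) : Prop :=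
  ∀ j, ∃ (i : T.Ic s j) (x : (T.P s j i).X), T.rep i y x ∧ (T.P s j i).Reg q x

/-- LEAF STRA (`top = D.Top`, `Fa = D.Fa σ c`) -/
structure Stra.Ax (T : J.Stra c) (Adm : (Wi →₀ ℝ) → Prop) (σ : Cel A') (top : J.Obc c → Prop)
    (Fa : Prop) : Prop where
  fin : Finite T.S
  finJ : ∀ s, Finite (T.Jp s)
  ax : ∀ s j i, (T.P s j i).Ax Adm
  cover : ∀ q y, Adm q → Sol σ q y → ¬top y → ∃ s, T.mem s y
  ntop : ∀ s q y, Adm q → Sol σ q y → T.mem s y → ¬top y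
  en : ∀ s q y, Adm q → Sol σ q y → T.mem s y → y.en = T.en s
  sol : ∀ s j (i : T.Ic s j) q y x, Adm q → Sol σ q y → T.mem s y → T.rep i y x →
    (T.P s j i).Sol q x
  dens : ∀ s j q y, Adm q → Sol σ q y → T.mem s y → ∃ (i : T.Ic s j) (x : (T.P s j i).X),
    T.rep i y x ∧ ((T.P s j i).Reg q x ∨ ∃ S, (T.P s j i).Onto q x S)
  kill : ∀ s q y, ¬T.face s → Adm q → Sol σ q y → T.mem s y → ¬T.Reg s q y
  face : ∀ s q y, T.face s → Adm q → Sol σ q y → T.mem s y → Fa ∧ y.Tight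
  fine : ∀ s q₀, Adm q₀ → ∀ (α : Type) (𝒰 : Ultrafilter α) (q : α → Wi →₀ ℝ) (y : α → J.Obc c) y₀,
    St.Cv (𝒰 : Filter α) q q₀ →
    (∀ᶠ i in (𝒰 : Filter α), Adm (q i) ∧ Sol σ (q i) (y i) ∧ T.mem s (y i)) →
    Sol σ q₀ y₀ → Str 𝒰 y y₀ →
    (T.mem s y₀ ∧ ∀ j (i : T.Ic s j) x₀, T.rep i y₀ x₀ → RNear (T.rep i) 𝒰 y x₀) ∨
    ∃ s', T.wt s < T.wt s' ∧ T.mem s' y₀ ∧
      (T.face s' → T.Reg s' q₀ y₀ → ∀ᶠ k in (𝒰 : Filter α), T.Reg s (q k) (y k))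

/-! ### kits -/

variable (J) in
/-- models, strata and the degeneration relations -/
structure Kit : Type 1 extends J.Mdl where
  Adm : (Wi →₀ ℝ) → Prop
  T : Cel A' → ∀ c, J.Stra c
  Deg : ∀ σ a (α : Type), Ultrafilter α → (α → (Q σ).X) → J.Obc (J.cf a) → Prop

namespace Kit
variable (K : J.Kit)

/-- all strata -/
abbrev S : Type := Σ (σ : J.𝒦) (c : M.Cl), (K.T σ c).S

/-- the order of the degenerations -/
def key (s : K.S) : ℕ ×ₗ ℝ ×ₗ ℕ :=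
  toLex (s.2.1.1.ncard, toLex ((K.T s.1 s.2.1).en s.2.2, (K.T s.1 s.2.1).wt s.2.2))

/-- the ideal strata -/
@[reducible] def idl : Idr Wi where
  S := K.S
  X s := J.Obc s.2.1
  Sol s q y := Sol s.1 q y ∧ (K.T s.1 s.2.1).mem s.2.2 y
  J s := (K.T s.1 s.2.1).Jp s.2.2
  I s := (K.T s.1 s.2.1).Ic s.2.2
  P s := (K.T s.1 s.2.1).P s.2.2
  rep i := (K.T _ _).rep i
  rank s := {s' | K.key s < K.key s'}.ncard
  Adm := K.Adm
  face s := (K.T s.1 s.2.1).face s.2.2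

/-- good for the ideal strata -/
def G (q : Wi →₀ ℝ) : Prop :=
  K.Adm q ∧ ∀ σ ∈ J.𝒦, ∀ c s (y : J.Obc c), Sol σ q y → (K.T σ c).mem s y → (K.T σ c).Reg s q y

theorem G_eq : K.G = K.idl.G := funext fun _ => propext (and_congr_right fun _ =>
  ⟨fun h s x hx => h s.1 s.1.2 _ _ x hx.1 hx.2, fun h σ hσ c s y h1 h2 => h ⟨⟨σ, hσ⟩, c, s⟩ y ⟨h1, h2⟩⟩)

/-- good for all strata -/
def GG (q : Wi →₀ ℝ) : Prop := K.G q ∧ ∀ σ ∈ J.𝒦, ∀ x ∈ K.gx.M σ q, (K.Q σ).Reg q x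

/-- the assembly -/
@[reducible] def gsm : Gsm Wi (Cel A') A' (A' × Bool) where
  toGx := K.gx
  Adm := K.Adm
  G := K.G
  𝒦 := J.𝒦
  Fc _ a := J.Obc (J.cf a)
  FSol {σ _} q y := Sol σ q y ∧ y.Tight
  feq _ a := J.feq (J.cf a)
  Deg {σ a α} := K.Deg σ a α

/-- LEAF GL at the wall `a` of the cell `σ` -/
structure Gl (σ : Cel A') (a : A') : Prop where
  topf : ∀ s q₀ (y₀ : J.Obc (J.cf a)), (K.T σ _).face s → K.Adm q₀ → Sol σ q₀ y₀ →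
    (K.T σ _).mem s y₀ → ∀ (α : Type) (𝒰 : Ultrafilter α) (q : α → Wi →₀ ℝ) y,
    (∀ᶠ i in (𝒰 : Filter α), K.Adm (q i) ∧ Sol σ (q i) (y i)) → Dg 𝒰 y y₀ →
    ∀ᶠ i in (𝒰 : Filter α), K.top (y i)
  isol : ∀ q, K.G q → ∀ (𝒰 : Ultrafilter ℕ) (y : ℕ → J.Obc (J.cf a)) y₀,
    (∀ i, Sol σ q (y i) ∧ (y i).Tight) → Sol σ q y₀ → y₀.Tight → Str 𝒰 y y₀ →
    ∀ᶠ i in (𝒰 : Filter ℕ), Iso (y i) y₀
  of_dg : ∀ q₀, K.G q₀ → ∀ (α : Type) (𝒰 : Ultrafilter α) (q : α → Wi →₀ ℝ) u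
    (y : J.Obc (J.cf a)), St.Cv (𝒰 : Filter α) q q₀ →
    (∀ᶠ i in (𝒰 : Filter α), K.Adm (q i) ∧ u i ∈ K.gx.M σ (q i)) → Sol σ q₀ y → y.Tight →
    Dg 𝒰 (fun i => K.ob (u i)) y → K.Deg σ a α 𝒰 u y
  one : ∀ α 𝒰 u y, K.Deg σ a α 𝒰 u y → Tendsto (fun i => K.gx.pa (u i) a) 𝒰 (𝓝 1)
  lt : ∀ α 𝒰 u y, K.Deg σ a α 𝒰 u y → ∀ a' ∈ J.wa σ, a' ≠ a →
    ∃ c < 1, ∀ᶠ i in (𝒰 : Filter α), K.gx.pa (u i) a' ≤ c
  congr : ∀ 𝒰 u u' y, K.Deg σ a ℝ 𝒰 u y →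
    (∀ᶠ i in (𝒰 : Filter ℝ), (K.Q σ).In (u i) ∧ (K.Q σ).eqv (u i) (u' i)) → K.Deg σ a ℝ 𝒰 u' y
  iso : ∀ q, K.G q → ∀ (𝒰 : Ultrafilter ℝ) u y y', (∀ᶠ i in (𝒰 : Filter ℝ), u i ∈ K.gx.M σ q) →
    Sol σ q y → y.Tight → Sol σ q y' → y'.Tight → K.Deg σ a ℝ 𝒰 u y →
    (K.Deg σ a ℝ 𝒰 u y' ↔ Iso y y')
  reg : ∀ q₀, K.G q₀ → ∀ α (𝒰 : Ultrafilter α) (q : α → Wi →₀ ℝ) u y, St.Cv (𝒰 : Filter α) q q₀ →
    (∀ᶠ i in (𝒰 : Filter α), K.Adm (q i) ∧ u i ∈ K.gx.M σ (q i)) → Sol σ q₀ y → y.Tight →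
    K.Deg σ a α 𝒰 u y → ∀ᶠ i in (𝒰 : Filter α), K.gx.Tr (q i) (u i) a
  ex : ∀ q, K.G q → ∀ y, Sol σ q y → y.Tight → ∀ 𝒰 : Ultrafilter ℝ, (𝒰 : Filter ℝ) ≤ 𝓝[<] 1 →
    ∃ u, (∀ᶠ T in (𝒰 : Filter ℝ), u T ∈ K.gx.M σ q ∧ K.gx.pa (u T) a = T) ∧ K.Deg σ a ℝ 𝒰 u y
  uniq : ∀ q, K.G q → ∀ y, Sol σ q y → y.Tight → ∀ 𝒰 : Ultrafilter ℝ, (𝒰 : Filter ℝ) ≤ 𝓝[<] 1 →
    ∀ u u', (∀ᶠ T in (𝒰 : Filter ℝ), u T ∈ K.gx.M σ q ∧ K.gx.pa (u T) a = T) →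
      (∀ᶠ T in (𝒰 : Filter ℝ), u' T ∈ K.gx.M σ q ∧ K.gx.pa (u' T) a = T) →
      K.Deg σ a ℝ 𝒰 u y → K.Deg σ a ℝ 𝒰 u' y → ∀ᶠ T in (𝒰 : Filter ℝ), (K.Q σ).eqv (u T) (u' T)

/-- everything but the gluing -/
structure Ax0 : Prop where
  ok : J.OK
  op : St.IsOp K.Adm
  comp : J.Comp K.Adm
  mdl : ∀ σ ∈ J.𝒦, K.toMdl.Ax K.Adm σ
  str : ∀ σ ∈ J.𝒦, ∀ c, (K.T σ c).Ax K.Adm σ K.Top (K.Fa σ c)

/-- what the genericity of the ideal strata needs -/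
structure Ax1 : Prop extends K.Ax0 where
  topf : ∀ σ ∈ J.𝒦, ∀ a ∈ J.wa σ, ∀ s q₀ (y₀ : J.Obc (J.cf a)), (K.T σ _).face s → K.Adm q₀ →
    Sol σ q₀ y₀ → (K.T σ _).mem s y₀ → ∀ (α : Type) (𝒰 : Ultrafilter α) (q : α → Wi →₀ ℝ) y,
    (∀ᶠ i in (𝒰 : Filter α), K.Adm (q i) ∧ Sol σ (q i) (y i)) → Dg 𝒰 y y₀ →
    ∀ᶠ i in (𝒰 : Filter α), K.top (y i)

/-- all leaves; gluing is needed only where a face stratum exists -/
structure Ax : Prop extends K.Ax0 where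
  gl : ∀ σ ∈ J.𝒦, ∀ a ∈ J.wa σ, K.Gl σ a ∨
    (∀ s, ¬(K.T σ (J.cf a)).face s) ∧ ∀ α 𝒰 u y, ¬K.Deg σ a α 𝒰 u y

variable {K}

/-- at a good perturbation every ideal solution is a regular face object -/
theorem Ax0.face (h : K.Ax0) (hq : K.G q) (hσ : σ ∈ J.𝒦) {y : J.Obc c} (hy : Sol σ q y)
    (ht : ¬K.Top y) : (K.Fa σ c ∧ y.Tight) ∧
      ∃ s, (K.T σ c).face s ∧ (K.T σ c).mem s y ∧ (K.T σ c).Reg s q y := by
  obtain ⟨s, hs⟩ := (h.str σ hσ c).cover q y hq.1 hy ht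
  have hr := hq.2 σ hσ c s y hy hs
  have hf : (K.T σ c).face s := by_contra fun hf => (h.str σ hσ c).kill s q y hf hq.1 hy hs hr
  exact ⟨(h.str σ hσ c).face s q y hf hq.1 hy hs, s, hf, hs, hr⟩

/-- at a good perturbation every unbroken solution is a top object -/
theorem Ax0.only_top (h : K.Ax0) (hq : K.G q) (hσ : σ ∈ J.𝒦) {y : J.Obc M.c0} (hy : Sol σ q y) :
    K.top y := by_contra fun ht =>
  let ⟨_, _, a, ha, e⟩ := (h.face hq hσ hy (mt K.top_iff.1 ht)).1.1; cf_ne ha e.symm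

theorem Ax0.tight (h : K.Ax0) (hσ : σ ∈ J.𝒦) {y : J.Obc c} (ht : K.Top y) : y.Tight := by
  obtain ⟨rfl, ht⟩ := ht
  exact tight_c0 ((h.mdl σ hσ).l0 y ht)

theorem Ax0.zc_zero (h : K.Ax0) (hq : K.G q) (hσ : σ ∈ J.𝒦) (hc : c ≠ M.c0)
    (hf : ∀ s, ¬(K.T σ c).face s) : J.zc q σ c = 0 := by
  have : IsEmpty (J.TS σ q c) := ⟨fun y =>
    let ⟨s, h1, _⟩ := (h.face hq hσ y.2.1 (K.not_top hc _)).2; hf s h1⟩
  exact Nat.card_of_isEmpty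

namespace Ax1
variable (H : K.Ax1)
include H

theorem fin : Finite K.S := by
  have : Finite M.Cl := Subtype.finite
  have := fun (σ : J.𝒦) c => (H.str σ σ.2 c).fin
  infer_instance

theorem rank_lt {s s' : K.S} (e : K.key s < K.key s') : K.idl.rank s' < K.idl.rank s := by
  have := H.fin
  exact ncard_lt_ncard ⟨fun _ ht => e.trans ht, fun ht => lt_irrefl (K.key s') (ht e)⟩

theorem idl : K.idl.Ax where
  fin := H.fin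
  finJ s := (H.str _ s.1.2 _).finJ _
  ax s := (H.str _ s.1.2 _).ax _
  adm := H.op
  sol s j i q y x ha hy := (H.str _ s.1.2 _).sol _ j i q y x ha hy.1 hy.2
  dens s j q y ha hy := (H.str _ s.1.2 _).dens _ j q y ha hy.1 hy.2
  kill s q y hf ha hy := (H.str _ s.1.2 _).kill _ q y hf ha hy.1 hy.2
  comp := by
    rintro ⟨⟨σ, hσ⟩, c, s⟩ q₀ ha α 𝒰 q y hq hy
    have hT := H.str σ hσ
    have hy' := hy.mono fun i hi => (⟨hi.1, hi.2.1⟩ : K.Adm (q i) ∧ Sol σ (q i) (y i))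
    have he := hy.mono fun i hi => (hT c).en s _ _ hi.1 hi.2.1 hi.2.2
    rcases H.comp σ hσ q₀ ha α 𝒰 q c y hq hy' with ⟨y₀, h1, h2 | ⟨h2, ε, h3, h4⟩⟩ | ⟨c₀, y₀, h1, h2, h3⟩
    · rcases (hT c).fine s q₀ ha α 𝒰 q y y₀ hq hy h1 h2 with h3 | ⟨s', h3, h4, h5⟩
      · exact .inl ⟨y₀, ⟨h1, h3.1⟩, h3.2⟩
      · refine .inr ⟨⟨⟨σ, hσ⟩, c, s'⟩, y₀, H.rank_lt ?_, ⟨h1, h4⟩, h5⟩
        refine Prod.Lex.toLex_lt_toLex.2 (.inr ⟨rfl, Prod.Lex.toLex_lt_toLex.2 (.inr ⟨?_, h3⟩)⟩)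
        exact (tendsto_nhds_unique (tendsto_const_nhds.congr' (he.mono fun _ e => e.symm))
          h2.en).trans ((hT c).en s' _ _ ha h1 h4)
    · obtain ⟨s', h5⟩ := (hT c).cover q₀ y₀ ha h1 fun ht => h2 (H.tight hσ ht)
      refine .inr ⟨⟨⟨σ, hσ⟩, c, s'⟩, y₀, H.rank_lt ?_, ⟨h1, h5⟩,
        fun hf => (h2 ((hT c).face s' q₀ y₀ hf ha h1 h5).2).elim⟩
      refine Prod.Lex.toLex_lt_toLex.2 (.inr ⟨rfl, Prod.Lex.toLex_lt_toLex.2 (.inl ?_)⟩)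
      obtain ⟨i, h6, h7⟩ := (he.and h4).exists
      have h8 := (hT c).en s' _ _ ha h1 h5
      show (K.T σ c).en s < (K.T σ c).en s'
      linarith
    · obtain ⟨s', h5⟩ := (hT c₀).cover q₀ y₀ ha h2 (K.not_top (fun e =>
        (h1.trans_eq (congrArg Subtype.val e)).2 (empty_subset _)) _)
      refine .inr ⟨⟨⟨σ, hσ⟩, c₀, s'⟩, y₀,
        H.rank_lt (Prod.Lex.toLex_lt_toLex.2 (.inl (ncard_lt_ncard h1))), ⟨h2, h5⟩, fun hf _ => ?_⟩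
      obtain ⟨⟨-, h6, a, h7, rfl⟩, h8⟩ := (hT c₀).face s' q₀ y₀ hf ha h2 h5
      obtain rfl : c = M.c0 := eq_c0 h1 (cf_sub a)
      filter_upwards [hy, H.topf σ hσ a h7 s' q₀ y₀ hf ha h2 h5 α 𝒰 q y hy'
        (h3 rfl (cf_sub a) h6 h8)] with i h9 h10
      exact ((hT _).ntop s _ _ h9.1 h9.2.1 h9.2.2 (K.top_iff.2 h10)).elim

theorem low : Low.Ax ⟨K.Adm, K.G⟩ := K.G_eq ▸ H.idl.low

end Ax1

namespace Ax
variable (H : K.Ax)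
include H

theorem gl' (hσ : σ ∈ J.𝒦) {a : A'} (ha : a ∈ J.wa σ) : K.Gl σ a := by
  rcases H.gl σ hσ a ha with h1 | ⟨h1, h2⟩
  · exact h1
  have e : ∀ q (y : J.Obc (J.cf a)), K.G q → ¬Sol σ q y := fun q y hq hy =>
    let ⟨s, h3, _⟩ := (H.face hq hσ hy (K.not_top (cf_ne ha) _)).2; h1 s h3
  exact ⟨fun s _ _ hs => (h1 s hs).elim, fun q hq _ _ y _ hy => (e q y hq hy).elim,
    fun q hq _ _ _ _ y _ _ hy => (e q y hq hy).elim, fun _ _ _ _ hd => (h2 _ _ _ _ hd).elim,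
    fun _ _ _ _ hd => (h2 _ _ _ _ hd).elim, fun _ _ _ _ hd => (h2 _ _ _ _ hd).elim,
    fun q hq _ _ y _ _ hy => (e q y hq hy).elim, fun q hq _ _ _ _ y _ _ hy => (e q y hq hy).elim,
    fun q hq y hy => (e q y hq hy).elim, fun q hq y hy => (e q y hq hy).elim⟩

theorem ax1 : K.Ax1 := ⟨H.toAx0, fun _ hσ _ ha => (H.gl' hσ ha).topf⟩

theorem low : Low.Ax ⟨K.Adm, K.G⟩ := H.ax1.low

theorem ffin (hq : K.G q) (hσ : σ ∈ J.𝒦) {a : A'} (ha : a ∈ J.wa σ) : Finite (K.gsm.FCl q σ a) := by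
  by_contra hn
  have := not_finite_iff_infinite.1 hn
  let f := Infinite.natEmbedding (K.gsm.FCl q σ a)
  have hy := fun i => (f i).out.2
  rcases H.comp σ hσ q hq.1 ℕ (hyperfilter ℕ) _ _ (fun i => (f i).out.1) (St.cv_const _ q)
    (.of_forall fun i => ⟨hq.1, (hy i).1⟩) with ⟨y₀, h1, h2⟩ | ⟨c₀, y₀, h1, h2, -⟩
  · have h3 := (H.face hq hσ h1 (K.not_top (cf_ne ha) _)).1.2
    have h4 := (H.gl' hσ ha).isol q hq _ _ y₀ hy h1 h3 (h2.resolve_right fun e => e.1 h3)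
    obtain ⟨i, hi, j, hj, e⟩ :=
      (show Set.Infinite _ from fun hf => notMem_hyperfilter_of_finite hf h4).nontrivial
    have o := fun i => (hy i).1.ok H.ok hσ
    have o' := h1.ok H.ok hσ
    exact e (f.injective (Quotient.out_equiv_out.1 ((feq_iff (o i) (o j)).2
      (hi.trans (hj.symm (o j) o') (o i) o' (o j)))))
  · obtain ⟨-, -, a', -, rfl⟩ := (H.face hq hσ h2 (K.not_top (fun e =>
      (h1.trans_eq (congrArg Subtype.val e)).2 (empty_subset _)) _)).1.1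
    exact cf_ne ha (eq_c0 h1 (cf_sub a'))

theorem gsm : K.gsm.Ax where
  fin := toFinite _
  low := H.low
  cx σ hσ := (H.mdl σ hσ).cx
  down := H.ok.down
  dens σ hσ := (H.mdl σ hσ).dens
  comp σ hσ q₀ hq α 𝒰 q u hc hu := by
    have hy := hu.mono fun i hi => (⟨hi.1, ((H.mdl σ hσ).sol _ hi.1 _ hi.2).1⟩ :
      K.Adm (q i) ∧ Sol σ (q i) (K.ob (u i)))
    rcases H.comp σ hσ q₀ hq.1 α 𝒰 q _ _ hc hy with ⟨y₀, h1, h2⟩ | ⟨c₀, y₀, h1, h2, h3⟩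
    · have h3 := H.only_top hq hσ h1
      exact .inl ((H.mdl σ hσ).str q₀ hq.1 α 𝒰 q u y₀ hc hu h1 h3
        (h2.resolve_right fun e => e.1 (H.tight hσ (K.top_iff.2 h3))))
    · obtain ⟨⟨-, h4, a, h5, rfl⟩, h6⟩ := (H.face hq hσ h2 (K.not_top (fun e =>
        (h1.trans_eq (congrArg Subtype.val e)).2 (empty_subset _)) _)).1
      exact .inr ⟨a, h5, y₀, ⟨h2, h6⟩, (H.gl' hσ h5).of_dg q₀ hq α 𝒰 q u y₀ hc hu h2 h6
        (h3 rfl (cf_sub a) h4 h6)⟩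
  deg_one σ hσ a ha := (H.gl' hσ ha).one
  deg_lt σ hσ a ha := (H.gl' hσ ha).lt
  deg_congr σ hσ a ha := (H.gl' hσ ha).congr
  deg_eqv σ hσ a ha q hq 𝒰 u y y' hu h1 h2 hd :=
    ((H.gl' hσ ha).iso q hq 𝒰 u y y' hu h1.1 h1.2 h2.1 h2.2 hd).trans
      (feq_iff (h1.1.ok H.ok hσ) (h2.1.ok H.ok hσ)).symm
  nof σ hσ hn a ha q hq y hy := by
    have h1 := (H.face hq hσ hy.1 (K.not_top (cf_ne ha) _)).1.1.1
    have h2 : (K.Q σ).n ≤ 0 := hn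
    rw [(H.mdl σ hσ).n] at h2
    omega
  ffin σ hσ _ a ha q hq := H.ffin hq hσ ha
  gl_reg σ hσ a ha q₀ hq α 𝒰 q u y h1 h2 h3 := (H.gl' hσ ha).reg q₀ hq α 𝒰 q u y h1 h2 h3.1 h3.2
  gl_ex σ hσ a ha q hq y hy := (H.gl' hσ ha).ex q hq y hy.1 hy.2
  gl_uniq σ hσ a ha q hq y hy := (H.gl' hσ ha).uniq q hq y hy.1 hy.2

/-- **The good perturbations are open and dense.** -/
theorem gg : Low.Ax ⟨K.Adm, K.GG⟩ := H.gsm.gg

theorem cl_equiv (hq : K.G q) (hσ : σ ∈ J.𝒦) : Nonempty ((K.Q σ).Cl (K.gx.M σ q) ≃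
    Quot fun y y' : J.TS σ q M.c0 => Iso y.1 y'.1) := by
  have hm := H.mdl σ hσ
  refine card_quot _ (equiv_TS H.ok hσ) (fun x => ⟨K.ob x.1, (hm.sol q hq.1 _ x.2).1,
    tight_c0 (hm.l0 _ (hm.sol q hq.1 _ x.2).2)⟩) (fun x y => hm.eqv q hq.1 _ x.2 _ y.2) fun y => ?_
  obtain ⟨x, h1, h2⟩ := hm.pt q hq.1 y.1 y.2.1 (H.only_top hq hσ y.2.1)
  exact ⟨⟨x, h1⟩, h2⟩

theorem z_eq (hq : K.G q) (hσ : σ ∈ J.𝒦) : K.gx.z q σ = J.z q σ :=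
  let ⟨e⟩ := H.cl_equiv hq hσ; Nat.card_congr e

theorem zf_eq (hσ : σ ∈ J.𝒦) (a : A') : K.gsm.zf q σ a = J.zf q σ a :=
  let ⟨e⟩ := card_quot _ (equiv_TS H.ok hσ) (fun y : J.TS σ q (J.cf a) => y)
    (fun y y' => feq_iff (y.2.1.ok H.ok hσ) (y'.2.1.ok H.ok hσ))
    fun y => ⟨y, (y.2.1.ok H.ok hσ).refl⟩
  Nat.card_congr e

/-- negative index -/
theorem empty (hq : K.GG q) (hσ : σ ∈ J.𝒦) (hn : K.n₀ + dim σ < 0) (y : J.Obc c) :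
    ¬Sol σ q y := fun hy => by
  by_cases ht : K.Top y
  · obtain ⟨rfl, ht⟩ := ht
    obtain ⟨x, h1, -⟩ := (H.mdl σ hσ).pt q hq.1.1 y hy ht
    have h2 : K.gx.M σ q = ∅ := H.gsm.empty hq hσ ((H.mdl σ hσ).n.trans_lt hn)
    exact (h2 ▸ h1 : x ∈ (∅ : Set _))
  · exact absurd (H.face hq.1 hσ hy ht).1.1.1 (by omega)

/-- index zero -/
theorem finite (hq : K.GG q) (hσ : σ ∈ J.𝒦) (hn : K.n₀ + dim σ = 0) :
    Finite (Quot fun y y' : J.TS σ q M.c0 => Iso y.1 y'.1) :=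
  let ⟨e⟩ := H.cl_equiv hq.1 hσ
  have : Finite ((K.Q σ).Cl (K.gx.M σ q)) := H.gsm.finite hq hσ ((H.mdl σ hσ).n.trans hn)
  .of_equiv _ e

/-- **Stokes.** -/
theorem stokes (hq : K.GG q) (hσ : σ ∈ J.𝒦) (hn : K.n₀ + dim σ = 1) :
    Even (∑ b ∈ J.wb σ, J.z q (fc σ b) + ∑ a ∈ J.wa σ, J.zf q σ a) := by
  have := H.gsm.stokes hq hσ ((H.mdl σ hσ).n.trans hn)
  rwa [Finset.sum_congr rfl fun b hb => H.z_eq hq.1 (H.ok.down σ hσ b hb),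
    Finset.sum_congr rfl fun a _ => H.zf_eq hσ a] at this

end Ax
end Kit
end Job
end Crest.Agent.X212.An
end
end

-- ▼ part X212/An/Loc

/-!
# Row 212, layer AN: locality, richness and smallness of the terms of a job; generic values
-/

set_option autoImplicit false
set_option linter.unusedSectionVars false
noncomputable section
open scoped Manifold ContDiff Topology InnerProductSpace
open MeasureTheory Set Function Filter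

namespace Crest.Agent.X212.An
open M Nd18 Wrd81

/-! ### generic values -/

section gen
variable {Wi : Type} {Adm : (Wi →₀ ℝ) → Prop}

variable (Adm) in
/-- `P` holds on an open dense subset of `Adm` -/
def Gen (P : (Wi →₀ ℝ) → Prop) : Prop := ∃ G, Low.Ax ⟨Adm, G⟩ ∧ ∀ q, G q → P q

theorem Low.Ax.and {G G' : (Wi →₀ ℝ) → Prop} (h : Low.Ax ⟨Adm, G⟩) (h' : Low.Ax ⟨Adm, G'⟩) :
    Low.Ax ⟨Adm, fun q => G q ∧ G' q⟩ where
  le q hq := h.le q hq.1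
  op := h.op.and h'.op
  ex O hO q₀ h1 h2 := by
    obtain ⟨q, h3, h4⟩ := h.ex O hO q₀ h1 h2
    obtain ⟨q', h5, h6⟩ := h'.ex _ (hO.and h.op) q (h.le q h4) ⟨h3, h4⟩
    exact ⟨q', h5.1, h5.2, h6⟩

namespace Gen
variable {P P' : (Wi →₀ ℝ) → Prop}

theorem of {G : (Wi →₀ ℝ) → Prop} (h : Low.Ax ⟨Adm, G⟩) : Gen Adm G := ⟨G, h, fun _ => id⟩

theorem adm (h : St.IsOp Adm) : Gen Adm Adm := of ⟨fun _ => id, h, fun _ _ q h1 h2 => ⟨q, h2, h1⟩⟩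

theorem mono (h : Gen Adm P) (k : ∀ q, Adm q → P q → P' q) : Gen Adm P' :=
  let ⟨G, h1, h2⟩ := h; ⟨G, h1, fun q hq => k q (h1.le q hq) (h2 q hq)⟩

theorem and (h : Gen Adm P) (h' : Gen Adm P') : Gen Adm fun q => P q ∧ P' q :=
  let ⟨_, h1, h2⟩ := h; let ⟨_, h3, h4⟩ := h'; ⟨_, h1.and h3, fun q hq => ⟨h2 q hq.1, h4 q hq.2⟩⟩

theorem all (ho : St.IsOp Adm) {I : Type} [Finite I] {P : I → (Wi →₀ ℝ) → Prop}
    (h : ∀ i, Gen Adm (P i)) : Gen Adm fun q => ∀ i, P i q := by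
  classical
  have := Fintype.ofFinite I
  have key : ∀ s : Finset I, Gen Adm fun q => ∀ i ∈ s, P i q := fun s => by
    induction s using Finset.induction_on with
    | empty => exact (adm ho).mono (by simp)
    | insert a s _ ih => exact ((h a).and ih).mono (by simp)
  exact (key Finset.univ).mono (by simp)

theorem ex (h : Gen Adm P) {O : (Wi →₀ ℝ) → Prop} (hO : St.IsOp O) {q₀ : Wi →₀ ℝ}
    (h1 : Adm q₀) (h2 : O q₀) : ∃ q, Adm q ∧ O q ∧ P q :=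
  let ⟨_, h3, h4⟩ := h; let ⟨q, h5, h6⟩ := h3.ex O hO q₀ h1 h2; ⟨q, h3.le q h6, h5, h4 q h6⟩

/-- restriction to an open subset -/
theorem res (h : Gen Adm P) {O : (Wi →₀ ℝ) → Prop} (hO : St.IsOp O) (k : ∀ q, O q → Adm q) :
    Gen O P :=
  let ⟨G, h1, h2⟩ := h
  ⟨fun q => O q ∧ G q, ⟨fun _ hq => hq.1, hO.and h1.op, fun O' hO' q₀ h3 h4 =>
    let ⟨q, h5, h6⟩ := h1.ex _ (hO.and hO') q₀ (k q₀ h3) ⟨h3, h4⟩; ⟨q, h5.2, h5.1, h6⟩⟩,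
    fun q hq => h2 q hq.2⟩

/-- a property that holds on an open part of every open set is generic -/
theorem of_loc (h : ∀ O, St.IsOp O → ∀ q₀, Adm q₀ → O q₀ →
    ∃ V, St.IsOp V ∧ (∃ q, V q ∧ O q) ∧ ∀ q, V q → Adm q ∧ P q) : Gen Adm P :=
  ⟨fun q => ∃ V, St.IsOp V ∧ V q ∧ ∀ q, V q → Adm q ∧ P q,
    ⟨fun q ⟨_, _, h1, h2⟩ => (h2 q h1).1,
      fun q₀ ⟨V, h1, h2, h3⟩ ι l q hq => (h1 q₀ h2 ι l q hq).mono fun _ hi => ⟨V, h1, hi, h3⟩,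
      fun O hO q₀ h1 h2 => let ⟨V, h3, ⟨q, h4, h5⟩, h6⟩ := h O hO q₀ h1 h2; ⟨q, h5, V, h3, h4, h6⟩⟩,
    fun q ⟨_, _, h1, h2⟩ => (h2 q h1).2⟩

end Gen

theorem St.Cv.map {Wi' ι : Type} {l : Filter ι} {q : ι → Wi →₀ ℝ} {q₀ : Wi →₀ ℝ}
    (h : St.Cv l q q₀) (e : Wi ↪ Wi') (p : Wi' →₀ ℝ) :
    St.Cv l (fun i => p + (q i).embDomain e) (p + q₀.embDomain e) := by
  classical
  obtain ⟨S, h1, h2⟩ := h
  refine ⟨S.map e, fun i w hw => ?_, fun w => ?_⟩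
  · by_cases hr : w ∈ range e
    · obtain ⟨v, rfl⟩ := hr
      simp [h1 i v (by simpa using hw)]
    · simp [Finsupp.embDomain_notin_range _ _ _ hr]
  · by_cases hr : w ∈ range e
    · obtain ⟨v, rfl⟩ := hr
      simpa using (h2 v).const_add _
    · simpa [Finsupp.embDomain_notin_range _ _ _ hr] using tendsto_const_nhds

theorem St.Cv.comap {Wi' ι : Type} {l : Filter ι} {q : ι → Wi' →₀ ℝ} {q₀ : Wi' →₀ ℝ}
    (h : St.Cv l q q₀) (e : Wi ↪ Wi') :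
    St.Cv l (fun i => (q i).comapDomain e e.injective.injOn) (q₀.comapDomain e e.injective.injOn) := by
  obtain ⟨S, h1, h2⟩ := h
  exact ⟨S.preimage e e.injective.injOn, fun i w hw => h1 i _ (by simpa using hw), fun w => h2 _⟩

/-- restriction of coefficients -/
abbrev rs {Wi' : Type} (e : Wi ↪ Wi') (q : Wi' →₀ ℝ) : Wi →₀ ℝ := q.comapDomain e e.injective.injOn

/-- **prisms**: if `f₀ (q|₀) = f₁ (q|₁)` for generic `q`, both functions have one generic value -/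
theorem Gen.prism {W₀ W₁ V : Type} {e₀ : W₀ ↪ Wi} {e₁ : W₁ ↪ Wi} (hd : ∀ a b, e₀ a ≠ e₁ b)
    {A₀ : (W₀ →₀ ℝ) → Prop} {A₁ : (W₁ →₀ ℝ) → Prop} (o₀ : St.IsOp A₀) (o₁ : St.IsOp A₁)
    (n₀ : ∃ q, A₀ q) (n₁ : ∃ q, A₁ q)
    (hA : ∀ q₀ q₁, A₀ q₀ → A₁ q₁ → Adm (q₀.embDomain e₀ + q₁.embDomain e₁))
    {f₀ : (W₀ →₀ ℝ) → V} {f₁ : (W₁ →₀ ℝ) → V} (h : Gen Adm fun q => f₀ (rs e₀ q) = f₁ (rs e₁ q)) :
    ∃ v, Gen A₀ (fun q => f₀ q = v) ∧ Gen A₁ fun q => f₁ q = v := by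
  obtain ⟨G, hG, h⟩ := h
  have r0 : ∀ (q₀ : W₀ →₀ ℝ) (q₁ : W₁ →₀ ℝ), rs e₀ (q₀.embDomain e₀ + q₁.embDomain e₁) = q₀ :=
      fun q₀ q₁ => by
    ext a; simp [Finsupp.embDomain_notin_range e₁ q₁ (e₀ a) fun ⟨b, hb⟩ => hd a b hb.symm]
  have r1 : ∀ (q₀ : W₀ →₀ ℝ) (q₁ : W₁ →₀ ℝ), rs e₁ (q₀.embDomain e₀ + q₁.embDomain e₁) = q₁ :=
      fun q₀ q₁ => by
    ext b; simp [Finsupp.embDomain_notin_range e₀ q₀ (e₁ b) fun ⟨a, ha⟩ => hd a b ha]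
  -- a good point over any pair of open sets, with open slices
  have key : ∀ O₀ O₁, St.IsOp O₀ → St.IsOp O₁ → ∀ q₀ q₁, A₀ q₀ → O₀ q₀ → A₁ q₁ → O₁ q₁ →
      ∃ (p₀ : W₀ →₀ ℝ) (p₁ : W₁ →₀ ℝ), ∃ V₀ V₁, St.IsOp V₀ ∧ St.IsOp V₁ ∧ V₀ p₀ ∧ O₀ p₀ ∧ V₁ p₁ ∧ O₁ p₁ ∧
        (∀ q, V₀ q → A₀ q ∧ f₀ q = f₁ p₁) ∧ ∀ q, V₁ q → A₁ q ∧ f₁ q = f₀ p₀ := by
    intro O₀ O₁ h0 h1 q₀ q₁ a0 b0 a1 b1
    obtain ⟨q, ⟨h2, h3⟩, h4⟩ := hG.ex (fun q => (A₀ (rs e₀ q) ∧ O₀ (rs e₀ q)) ∧ A₁ (rs e₁ q) ∧ O₁ (rs e₁ q))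
      (fun q hq ι l u hu => ((o₀.and h0) _ hq.1 ι l _ (hu.comap e₀)).and
        ((o₁.and h1) _ hq.2 ι l _ (hu.comap e₁))) _ (hA q₀ q₁ a0 a1)
      (by rw [r0, r1]; exact ⟨⟨a0, b0⟩, a1, b1⟩)
    refine ⟨rs e₀ q, rs e₁ q, fun p => A₀ p ∧ G (q - (rs e₀ q).embDomain e₀ + p.embDomain e₀),
      fun p => A₁ p ∧ G (q - (rs e₁ q).embDomain e₁ + p.embDomain e₁),
      o₀.and fun p hp ι l u hu => hG.op _ hp ι l _ (hu.map e₀ _),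
      o₁.and fun p hp ι l u hu => hG.op _ hp ι l _ (hu.map e₁ _), ⟨h2.1, by simpa using h4⟩, h2.2,
      ⟨h3.1, by simpa using h4⟩, h3.2, fun p hp => ⟨hp.1, ?_⟩, fun p hp => ⟨hp.1, ?_⟩⟩
    · convert h _ hp.2 using 2
      · ext a; simp
      · ext b
        simp [fun u => Finsupp.embDomain_notin_range e₀ u (e₁ b) fun ⟨a, ha⟩ => hd a b ha]
    · convert (h _ hp.2).symm using 2
      · ext b; simp
      · ext a
        simp [fun u => Finsupp.embDomain_notin_range e₁ u (e₀ a) fun ⟨b, hb⟩ => hd a b hb.symm]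
  obtain ⟨q₀, a0⟩ := n₀
  obtain ⟨q₁, a1⟩ := n₁
  obtain ⟨p₀, p₁, V₀, V₁, h1, h2, h3, -, h4, -, h5, h6⟩ :=
    key _ _ St.isOp_true St.isOp_true q₀ q₁ a0 trivial a1 trivial
  refine ⟨f₀ p₀, .of_loc fun O hO u b0 b1 => ?_, .of_loc fun O hO u b0 b1 => ?_⟩
  · obtain ⟨u₀, u₁, U₀, -, k1, -, k3, k4, -, k5, k6, -⟩ := key O V₁ hO h2 u p₁ b0 b1 (h6 _ h4).1 h4
    exact ⟨U₀, k1, ⟨u₀, k3, k4⟩, fun q hq => ⟨(k6 q hq).1, (k6 q hq).2.trans (h6 _ k5).2⟩⟩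
  · obtain ⟨u₀, u₁, -, U₁, -, k1, -, k2, k3, k4, -, k6⟩ := key V₀ O h1 hO p₀ u (h5 _ h3).1 h3 b0 b1
    exact ⟨U₁, k1, ⟨u₁, k3, k4⟩, fun q hq => ⟨(k6 q hq).1,
      (k6 q hq).2.trans ((h5 _ k2).2.trans (h5 _ h3).2.symm)⟩⟩

/-- the generic value is unique -/
theorem Gen.uniq {V : Type} {f : (Wi →₀ ℝ) → V} {v v' : V} (hn : ∃ q, Adm q)
    (h : Gen Adm fun q => f q = v) (h' : Gen Adm fun q => f q = v') : v = v' :=
  let ⟨_, h0⟩ := hn; let ⟨_, _, _, h1, h2⟩ := (h.and h').ex St.isOp_true h0 trivial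
  h1.symm.trans h2

/-! ### small perturbations -/

theorem Ball.mono {b b' : Wi → ℝ} (hb : ∀ w, b w ≤ b' w) {q₀ q : Wi →₀ ℝ} (h : Ball b' q₀ q) :
    Ball b q₀ q :=
  (Finset.sum_le_sum fun w _ => mul_le_mul_of_nonneg_left (hb w) (abs_nonneg _)).trans_lt h

/-- `P` holds for every class of small perturbations (the form of the leaves) -/
def Sml (P : ((Wi →₀ ℝ) → Prop) → Prop) : Prop :=
  ∃ b : Wi → ℝ, (∀ w, 0 ≤ b w) ∧ ∀ Adm, (∀ q, Adm q → Ball b 0 q) → P Adm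

namespace Sml
variable {P P' : ((Wi →₀ ℝ) → Prop) → Prop}

theorem of (h : ∀ Adm, P Adm) : Sml P := ⟨0, fun _ => le_rfl, fun A _ => h A⟩

theorem mono (h : Sml P) (k : ∀ Adm, P Adm → P' Adm) : Sml P' :=
  let ⟨b, h1, h3⟩ := h; ⟨b, h1, fun A hA => k A (h3 A hA)⟩

theorem and (h : Sml P) (h' : Sml P') : Sml fun A => P A ∧ P' A :=
  let ⟨b, h1, h3⟩ := h; let ⟨b', h4, h6⟩ := h'
  ⟨b + b', fun w => add_nonneg (h1 w) (h4 w),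
    fun A hA => ⟨h3 A fun q hq => (hA q hq).mono fun w => le_add_of_nonneg_right (h4 w),
      h6 A fun q hq => (hA q hq).mono fun w => le_add_of_nonneg_left (h1 w)⟩⟩

theorem all {I : Type} [Finite I] {P : I → ((Wi →₀ ℝ) → Prop) → Prop} (h : ∀ i, Sml (P i)) :
    Sml fun A => ∀ i, P i A := by
  classical
  have := Fintype.ofFinite I
  have key : ∀ s : Finset I, Sml fun A => ∀ i ∈ s, P i A := fun s => by
    induction s using Finset.induction_on with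
    | empty => exact .of (by simp)
    | insert a s _ ih => exact ((h a).and ih).mono (by simp)
  exact (key Finset.univ).mono (by simp)

end Sml

/-- `P` holds for generic small perturbations -/
def GV (P : (Wi →₀ ℝ) → Prop) : Prop := Sml fun A => St.IsOp A → Gen A P

namespace GV
variable {P P' : (Wi →₀ ℝ) → Prop}

theorem of_ball {b : Wi → ℝ} (hb : ∀ w, 0 ≤ b w) (h : Gen (Ball b 0) P) : GV P :=
  ⟨b, hb, fun _ hA ho => h.res ho hA⟩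

theorem ball (h : GV P) : ∃ b : Wi → ℝ, (∀ w, 0 ≤ b w) ∧ Gen (Ball b 0) P :=
  let ⟨b, h1, h2⟩ := h; ⟨b, h1, h2 _ (fun _ => id) (isOp_ball b 0)⟩

theorem mono (h : GV P) (k : ∀ q, P q → P' q) : GV P' :=
  Sml.mono h fun _ h1 ho => (h1 ho).mono fun q _ => k q

theorem and (h : GV P) (h' : GV P') : GV fun q => P q ∧ P' q :=
  (Sml.and h h').mono fun _ h1 ho => (h1.1 ho).and (h1.2 ho)

theorem all {I : Type} [Finite I] {P : I → (Wi →₀ ℝ) → Prop} (h : ∀ i, GV (P i)) :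
    GV fun q => ∀ i, P i q := (Sml.all h).mono fun _ h1 ho => Gen.all ho fun i => h1 i ho

theorem ex (h : GV P) : ∃ q, P q :=
  let ⟨b, _, h1⟩ := h.ball; let ⟨q, _, _, h2⟩ := h1.ex St.isOp_true (ball_self b 0) trivial; ⟨q, h2⟩

theorem uniq {V : Type} {f : (Wi →₀ ℝ) → V} {v v' : V} (h : GV fun q => f q = v)
    (h' : GV fun q => f q = v') : v = v' := let ⟨_, h1, h2⟩ := (h.and h').ex; h1.symm.trans h2

/-- **prisms** -/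
theorem prism {W₀ W₁ V : Type} {e₀ : W₀ ↪ Wi} {e₁ : W₁ ↪ Wi} (hd : ∀ a b, e₀ a ≠ e₁ b)
    {f₀ : (W₀ →₀ ℝ) → V} {f₁ : (W₁ →₀ ℝ) → V} (h : GV fun q => f₀ (rs e₀ q) = f₁ (rs e₁ q)) :
    ∃ v, GV (fun q => f₀ q = v) ∧ GV fun q => f₁ q = v := by
  obtain ⟨b, hb, h⟩ := h.ball
  obtain ⟨v, h1, h2⟩ := h.prism hd (isOp_ball (fun a => 2 * b (e₀ a)) 0)
    (isOp_ball (fun a => 2 * b (e₁ a)) 0) ⟨0, ball_self _ 0⟩ ⟨0, ball_self _ 0⟩ fun q₀ q₁ a0 a1 => by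
      have e : ∀ {W' : Type} (e : W' ↪ Wi) (q : W' →₀ ℝ), Ball (fun a => 2 * b (e a)) 0 q →
          (q.embDomain e).sum (fun w a => |a| * b w) < 1 / 2 := fun e q hq => by
        rw [Finsupp.sum_embDomain]
        simp only [Ball, sub_zero, Finsupp.sum, mul_left_comm _ (2 : ℝ), ← Finset.mul_sum] at hq ⊢
        linarith
      rw [Ball, sub_zero, Finsupp.sum_add_index_of_disjoint]
      · linarith [e e₀ q₀ a0, e e₁ q₁ a1]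
      · simp only [Finsupp.support_embDomain, Finset.disjoint_left, Finset.mem_map]
        rintro _ ⟨a, -, rfl⟩ ⟨c, -, hc⟩
        exact hd a c hc.symm
  exact ⟨v, of_ball (fun a => by linarith [hb (e₀ a)]) h1, of_ball (fun a => by linarith [hb (e₁ a)]) h2⟩

end GV

end gen

/-! ### syntax -/

section syn
variable {M lam : Type} [Fintype lam] {r n : ℕ}

/-- the coefficient vanishes for spinors supported in `O` -/
def Co.Van (O : Set M) : Co M lam r → Prop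
  | .z _ => False
  | .s g _ => ∀ x ∈ O, g.s x = 0

/-- the term vanishes on `O` (open) for spinors supported in `O` -/
def Tm.Van (O : Set M) : Tm M lam r n → Prop
  | .lin u => ∃ f w, u = .mul f :: w ∧ ∀ x ∈ O, f x = 0
  | .anti d s _ => (∀ x ∈ O, s x = 0) ∨ d.Van O
  | .ad g _ _ => ∀ x ∈ O, g x = 0
  | .adj d _ g _ _ _ _ => (∀ x ∈ O, g x = 0) ∨ d.Van O
  | .adn f _ _ _ _ => ∀ x ∈ O, f x = 0
  | .cut _ _ g => ∀ x ∈ O, g.s x = 0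
  | .cz _ _ _ => False

/-- terms of the field equations with coefficients `z i` -/
def Tm.Zc : Tm M lam r n → Prop
  | .lin _ => True
  | .anti d _ _ => ∃ i, d = .z i
  | .ad _ _ _ => True
  | .adj d _ _ _ _ _ _ => ∃ i, d = .z i
  | _ => False

end syn

variable {Wi : Type} {X : Mf 4} {A κ lam : Type} [Fintype A] [Fintype κ] [Fintype lam]
  [DecidableEq lam] {M : Mark X A κ} {W : World M} {N : ML M lam}

namespace Job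
variable {Λ : Lns W N} {A' h : Type} [Fintype A'] [DecidableEq A'] [Fintype h] {r n : ℕ}
  (J : Job Wi Λ A' h r n)

/-- agreement on the shared coordinates `sh` and on the coordinates of the walls in `V` -/
def Ag (sh : Set A') (V : Set A) (s s' : A' → ℝ) : Prop :=
  ∀ a, (a ∈ sh ∨ ∃ x ∈ V, J.hd a = some x) → s a = s' a

/-- the data on a piece depend on the shared coordinates and on the walls inside the piece -/
structure Loc (sh : Set A') : Prop where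
  soft : ∀ a, J.hd a = none → a ∈ sh
  u : ∀ s s', J.Ag sh ∅ s s' → (J.Θ s).1 = (J.Θ s').1
  t : ∀ x s s', J.Ag sh {x} s s' → (J.Θ s).2 x = (J.Θ s').2 x
  ν : ∀ x s s', J.Ag sh {x} s s' → J.ν x s = J.ν x s'
  cc : ∀ σ ∈ J.𝒦, ∀ s ∈ J.dom σ, ∀ s' ∈ J.dom σ, ∀ c : M.Cl, Sys.inf (J.Θ s).2 = c.1 →
    Sys.inf (J.Θ s').2 = c.1 → ∀ P : Set (Reg A), (∀ π ∈ P, M.sys.Piece c.1 π) →
    J.Ag sh (⋃ π ∈ P, M.sys.inn π) s s' → ∀ i, J.nb i ⊆ ⋃ π ∈ P, M.sys.U π →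
    ∀ w, J.cc i w s = J.cc i w s'
  co : ∀ σ ∈ J.𝒦, ∀ s ∈ J.dom σ, ∀ s' ∈ J.dom σ, ∀ c : M.Cl, Sys.inf (J.Θ s).2 = c.1 →
    Sys.inf (J.Θ s').2 = c.1 → ∀ P : Set (Reg A), (∀ π ∈ P, M.sys.Piece c.1 π) →
    J.Ag sh (⋃ π ∈ P, M.sys.inn π) s s' → ∀ w, J.co w s = J.co w s' ∨ (J.tw w).Van (⋃ π ∈ P, M.sys.U π)
  bas : ∀ w, Bas (J.tw w)
  nb : ∀ i, IsPreconnected (J.nb i)

/-- the index `w` has no neck term at `s` -/
def Nn (w : Wi) (s : A' → ℝ) : Prop := ∀ a, J.ν a s • (J.xs a).ty w = 0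

/-- `τ` is one of the terms at `s` -/
def HasT (s : A' → ℝ) (τ : Tm X.M (lam ⊕ lam) r n) : Prop :=
  ∃ w, J.tw w = τ ∧ J.co w s ≠ 0 ∧ (∀ i, J.cc i w s = 0) ∧ J.Nn w s

/-- all field terms in the region `π` -/
def RichT (s : A' → ℝ) (π : Reg A) : Prop :=
  ∀ τ, TmIn X.I (M.sys.U π) τ → Bas τ → τ.Zc → J.HasT s τ

/-- all linear terms of the scalar rows -/
def RichS (s : A' → ℝ) : Prop := ∀ i a k, J.HasT s (.cz i a k)

/-- all terms of the row of the cut `i` -/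
def RichC (s : A' → ℝ) (π : Reg A) (i : h) : Prop := ∀ t : Tc X.M (lam ⊕ lam) r,
  XiIn X.I (M.sys.U π) t.ξ → ∃ w, J.tc i w = t ∧ J.cc i w s ≠ 0 ∧ J.co w s = 0 ∧
    (∀ i', i' ≠ i → J.cc i' w s = 0) ∧ J.Nn w s

/-- richness over `Z c` on the pieces `P` -/
def Rich (σ : Cel A') (c : M.Cl) (P : Set (Reg A)) : Prop := ∀ s ∈ cl σ, Sys.inf (J.Θ s).2 = c.1 →
  (∀ π ∈ P, J.RichT s π) ∧ J.RichS s ∧ ∀ π ∈ P, ∀ i, J.nb i ⊆ M.sys.U π → J.RichC s π i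

variable {J}

/-- kits for all small classes give good generic perturbations -/
theorem gv_of {R : J.Kit → Prop}
    (h : Sml fun Adm => St.IsOp Adm → ∃ K : J.Kit, K.Adm = Adm ∧ K.Ax ∧ R K) :
    GV fun q => ∃ K : J.Kit, K.Ax ∧ K.GG q ∧ R K := h.mono fun _ h1 ho => by
  obtain ⟨K, rfl, h2, h3⟩ := h1 ho
  exact (Gen.of h2.gg).mono fun q _ hq => ⟨K, h2, hq, h3⟩

/-- faces at pinch walls are empty -/
theorem Kit.Ax0.zf_pin {K : J.Kit} (H : K.Ax0) {q : Wi →₀ ℝ} (hq : K.G q) {σ : Cel A'}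
    (hσ : σ ∈ J.𝒦) {a : A'} {x : A} (ha : J.hd a = some x) (hx : M.pin x) : J.zf q σ a = 0 := by
  have : IsEmpty (J.TS σ q (J.cf a)) := ⟨fun y => ((H.face hq hσ y.2.1 (K.not_top
    (fun e => (show (J.cf a).1.Nonempty from ⟨x, ha⟩).ne_empty (congrArg Subtype.val e)) _)).1.1.2.1 ha).2 hx⟩
  exact Nat.card_of_isEmpty

end Job
end Crest.Agent.X212.An
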