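import Crest.Agent.X212.Mod61.Prob

-- ▼ part X212/Mod61/Cnt
section

/-! Counting isomorphism classes of smooth solutions: emptiness, finiteness, Stokes. -/

set_option autoImplicit false
set_option linter.unusedSectionVars false

noncomputable section

open Set Filter Topology Function
open scoped ContDiff

namespace Crest.Agent.X212.Mod61

open Slc61

namespace Prob

variable {W : Type} (Q : Prob W)

/-- isomorphism classes of the configurations in `A` -/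
abbrev Cl (A : Set Q.X) : Type := Quotient (Q.eqv.comap (Subtype.val : A → Q.X))

/-- the number of isomorphism classes in `A` -/
def cnt (A : Set Q.X) : ℕ := Nat.card (Q.Cl A)

/-- compactness up to isomorphism -/
def Cpt (A : Set Q.X) : Prop := ∀ (ι : Type) (𝒰 : Ultrafilter ι) (u : ι → Q.X),
  (∀ᶠ i in (𝒰 : Filter ι), u i ∈ A) → ∃ x₀ ∈ A, Tendsto u 𝒰 (Q.Near x₀)

/-- `A` is a union of isomorphism classes -/
def Sat (A : Set Q.X) : Prop := ∀ x y, Q.eqv x y → x ∈ A → y ∈ A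

/-- the modules isomorphic to the module of `x` -/
def cb (x : Q.X) : Set Q.O := {o | ∃ (y : Q.S x.1) (y' : Q.S o), Q.In ⟨x.1, y⟩ ∧ Q.eqv ⟨x.1, y⟩ ⟨o, y'⟩}

/-- the gauge saturation of the part of `A` over the module `o` -/
def Z (A : Set Q.X) (o : Q.O) : Set (Q.C o) := sat (Q.G o) (Q.pt '' {y | (⟨o, y⟩ : Q.X) ∈ A})

theorem inv_Z (A : Set Q.X) (o : Q.O) : Inv (Q.G o) (Q.Z A o) := inv_sat _

theorem Z_mono {A B : Set Q.X} (hAB : A ⊆ B) (o : Q.O) : Q.Z A o ⊆ Q.Z B o := by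
  rintro v ⟨g, y, h1, h2⟩
  exact ⟨g, y, hAB h1, h2⟩

theorem pt_mem_Z {A : Set Q.X} {o : Q.O} {y : Q.S o} (hy : (⟨o, y⟩ : Q.X) ∈ A) :
    Q.pt y ∈ Q.Z A o := subset_sat _ ⟨y, hy, rfl⟩

theorem cnt_empty : Q.cnt ∅ = 0 := by
  have : IsEmpty (Q.Cl ∅) := ⟨fun m => by
    obtain ⟨x, -⟩ := Quotient.mk_surjective m
    exact x.2⟩
  exact Nat.card_of_isEmpty

namespace Ax

variable {Q} {Adm : (W →₀ ℝ) → Prop} (h : Q.Ax Adm)
include h

theorem move {x : Q.X} {o : Q.O} (ho : o ∈ Q.cb x) :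
    ∃ y : Q.S o, Q.eqv x ⟨o, y⟩ := by
  obtain ⟨y, y', h1, h2⟩ := ho
  obtain ⟨T, -, -, h3⟩ := h.tr ⟨x.1, y⟩ ⟨o, y'⟩ h1 h2
  obtain ⟨z, -, hz⟩ := h3 x.2
  exact ⟨z, hz⟩

theorem cb_eqv {x y : Q.X} (hx : Q.In x) (e : Q.eqv x y) : Q.cb x = Q.cb y := by
  have key : ∀ {x y : Q.X}, Q.In x → Q.eqv x y → Q.cb x ⊆ Q.cb y := fun {x y} hx e o ho => by
    obtain ⟨z, hz⟩ := h.move ho
    exact ⟨y.2, z, h.in_eqv _ _ e hx, Q.eqv.trans (Q.eqv.symm e) hz⟩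
  exact (key hx e).antisymm (key (h.in_eqv _ _ e hx) (Q.eqv.symm e))

omit h in
theorem self_mem_cb {x : Q.X} (hx : Q.In x) : x.1 ∈ Q.cb x := ⟨x.2, x.2, hx, Q.eqv.refl _⟩

/-- `Near` only depends on the isomorphism class. -/
theorem near_le {x x' : Q.X} (hx : Q.In x) (e : Q.eqv x x') : Q.Near x ≤ Q.Near x' := by
  intro A hA
  obtain ⟨N, hN, hsub⟩ := Q.mem_near.1 hA
  obtain ⟨T, h1, ⟨A', ρ, h2, -⟩, h3⟩ := h.tr x x' hx e
  refine Q.mem_near.2 ⟨T ⁻¹' N, h2.continuousAt.preimage_mem_nhds (h1 ▸ hN), ?_⟩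
  rintro z ⟨y, h4, h5⟩
  obtain ⟨y', h6, h7⟩ := h3 y
  exact hsub ⟨y', h6 ▸ h4, Q.eqv.trans h5 h7⟩

theorem mem_of_pt_mem_Z {A : Set Q.X} (hA : ∀ x ∈ A, Q.In x) (hs : Q.Sat A) {o : Q.O} {y : Q.S o}
    (hy : Q.In ⟨o, y⟩) (hz : Q.pt y ∈ Q.Z A o) : (⟨o, y⟩ : Q.X) ∈ A := by
  obtain ⟨g, y', h1, h2⟩ := hz
  exact hs _ _ (Q.eqv.symm ((h.orb o y y' hy (hA _ h1)).2 ⟨g, h2.symm⟩)) h1

/-- only finitely many isomorphism classes of modules carry points of a compact set -/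
theorem finite_cb {A : Set Q.X} (hA : ∀ x ∈ A, Q.In x) (hc : Q.Cpt A) : (Q.cb '' A).Finite := by
  by_contra hinf
  have : Infinite ↥(Q.cb '' A) := Set.infinite_coe_iff.2 hinf
  choose u hu hu' using fun c : ↥(Q.cb '' A) => c.2
  obtain ⟨x₀, hx₀, hl⟩ := hc _ (hyperfilter _) u (Eventually.of_forall hu)
  have h1 := Q.tendsto_near.1 hl univ univ_mem
  have h2 : ({⟨Q.cb x₀, x₀, hx₀, rfl⟩} : Set ↥(Q.cb '' A)) ∈ hyperfilter ↥(Q.cb '' A) := by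
    refine mem_of_superset h1 ?_
    rintro c ⟨y, -, hy⟩
    apply Subtype.ext
    rw [← hu' c, h.cb_eqv (hA _ (hu c)) hy]
    rfl
  exact (finite_singleton _).notMem_hyperfilter h2

/-- the classes over one module class form an orbit space -/
theorem class_equiv {A : Set Q.X} (hA : ∀ x ∈ A, Q.In x) (hs : Q.Sat A) {x₀ : Q.X}
    (hx₀ : Q.In x₀) :
    Nonempty (Quotient ((Q.eqv.comap (Subtype.val : A → Q.X)).comap
      (Subtype.val : {x : A // Q.cb x = Q.cb x₀} → A)) ≃ Mod (Q.G x₀.1) (Q.Z A x₀.1)) := by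
  have hm : ∀ x : {x : A // Q.cb x = Q.cb x₀}, ∃ y : Q.S x₀.1, Q.eqv x.1.1 ⟨x₀.1, y⟩ := fun x =>
    h.move (by rw [x.2]; exact self_mem_cb hx₀)
  choose m hm using hm
  have hmA : ∀ x, (⟨x₀.1, m x⟩ : Q.X) ∈ A := fun x => hs _ _ (hm x) x.1.2
  refine ⟨quotEquiv _ (fun x => ⟨Q.pt (m x), Q.pt_mem_Z (hmA x)⟩) (fun x y => ?_) ?_⟩
  · rw [← h.orb _ _ _ (hA _ (hmA x)) (hA _ (hmA y))]
    exact ⟨fun e => Q.eqv.trans (Q.eqv.symm (hm x)) (Q.eqv.trans e (hm y)),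
      fun e => Q.eqv.trans (hm x) (Q.eqv.trans e (Q.eqv.symm (hm y)))⟩
  · rintro ⟨v, g, y, h1, h2⟩
    let x : {x : A // Q.cb x = Q.cb x₀} := ⟨⟨⟨x₀.1, y⟩, h1⟩, rfl⟩
    obtain ⟨k, hk⟩ := (h.orb _ _ _ (hA _ (hmA x)) (hA _ h1)).1 (Q.eqv.symm (hm x))
    refine ⟨x, g⁻¹ * k, ?_⟩
    show (g⁻¹ * k) • Q.pt (m x) = v
    rw [mul_smul, hk, h2, inv_smul_smul]

/-- the count is a finite sum of orbit counts -/
theorem cnt_eq_sum {A : Set Q.X} (hA : ∀ x ∈ A, Q.In x) (hs : Q.Sat A) (R : Finset (Set Q.O))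
    (hR : ∀ x ∈ A, Q.cb x ∈ R) (r : Set Q.O → Q.X) (hr : ∀ c ∈ R, Q.In (r c) ∧ Q.cb (r c) = c)
    (hf : ∀ c ∈ R, Finite (Mod (Q.G (r c).1) (Q.Z A (r c).1))) :
    Finite (Q.Cl A) ∧ Q.cnt A = ∑ c ∈ R, Slc61.cnt (Q.G (r c).1) (Q.Z A (r c).1) := by
  have he : ∀ c ∈ R, Nonempty (Quotient ((Q.eqv.comap (Subtype.val : A → Q.X)).comap
      (Subtype.val : {x : A // Q.cb x = c} → A)) ≃ Mod (Q.G (r c).1) (Q.Z A (r c).1)) := by
    intro c hc
    have := h.class_equiv hA hs (hr c hc).1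
    rwa [(hr c hc).2] at this
  obtain ⟨h1, h2⟩ := card_quot_eq_sum (Q.eqv.comap (Subtype.val : A → Q.X)) (fun x => Q.cb x)
    (fun x y e => h.cb_eqv (hA _ x.2) e) R (fun x => hR _ x.2) fun c hc => by
      obtain ⟨e⟩ := he c hc
      have := hf c hc
      exact Finite.of_equiv _ e.symm
  refine ⟨h1, h2.trans (Finset.sum_congr rfl fun c hc => ?_)⟩
  obtain ⟨e⟩ := he c hc
  exact Nat.card_congr e

theorem exists_reps {A : Set Q.X} (hA : ∀ x ∈ A, Q.In x) (hc : Q.Cpt A) (hne : A.Nonempty) :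
    ∃ (R : Finset (Set Q.O)) (r : Set Q.O → Q.X), (∀ x ∈ A, Q.cb x ∈ R) ∧
      ∀ c ∈ R, Q.In (r c) ∧ Q.cb (r c) = c := by
  have : Nonempty Q.X := ⟨hne.some⟩
  choose! r h1 h2 using fun c (hc : c ∈ Q.cb '' A) => hc
  refine ⟨(h.finite_cb hA hc).toFinset, r, fun x hx => (Finite.mem_toFinset _).2 ⟨x, hx, rfl⟩,
    fun c hc => ?_⟩
  have hc' := (Finite.mem_toFinset _).1 hc
  exact ⟨hA _ (h1 c hc'), h2 c hc'⟩

/-- compactness in the orbit space -/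
theorem isCompact {A B : Set Q.X} (hB : ∀ x ∈ B, Q.In x) (hAB : A ⊆ B) (hsA : Q.Sat A)
    (hsB : Q.Sat B) (hc : Q.Cpt A) (o : Q.O) :
    IsCompact (cls (Q.G o) '' {v : Q.Z B o | (v : Q.C o) ∈ Q.Z A o}) := by
  rw [isCompact_iff_ultrafilter_le_nhds']
  intro 𝒰 h𝒰
  have hch : ∀ m ∈ cls (Q.G o) '' {v : Q.Z B o | (v : Q.C o) ∈ Q.Z A o}, ∃ y : Q.S o,
      ∃ hy : (⟨o, y⟩ : Q.X) ∈ A, cls (Q.G o) ⟨Q.pt y, Q.pt_mem_Z (hAB hy)⟩ = m := by
    rintro _ ⟨v, ⟨g, y, h1, h2⟩, rfl⟩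
    exact ⟨y, h1, (mk_eq_iff.2 ⟨g, h2.symm⟩).symm⟩
  obtain ⟨m₀, hm₀⟩ := Ultrafilter.nonempty_of_mem h𝒰
  have : Nonempty (Q.S o) := ⟨(hch m₀ hm₀).choose⟩
  choose! y hy hy' using hch
  obtain ⟨x₁, hx₁, hl⟩ := hc _ 𝒰 (fun m => ⟨o, y m⟩) (mem_of_superset h𝒰 hy)
  obtain ⟨m₁, ⟨z, -, hz⟩, hm₁⟩ :=
    Filter.nonempty_of_mem (inter_mem (Q.tendsto_near.1 hl univ univ_mem) h𝒰)
  have hI := hB _ (hAB hx₁)
  obtain ⟨y₁, e₁⟩ := h.move (x := x₁) (o := o)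
    ⟨z, y m₁, h.in_eqv _ _ hz (hB _ (hAB (hy m₁ hm₁))), Q.eqv.symm hz⟩
  have hy₁ : (⟨o, y₁⟩ : Q.X) ∈ A := hsA _ _ e₁ hx₁
  have hl' := Q.tendsto_near.1 (hl.mono_right (h.near_le hI e₁))
  refine ⟨cls _ ⟨Q.pt y₁, Q.pt_mem_Z (hAB hy₁)⟩, ⟨_, Q.pt_mem_Z hy₁, rfl⟩, fun N hN => ?_⟩
  obtain ⟨N', hN', hsub⟩ := (mem_nhds_subtype _ _ _).1
    (continuous_mk.continuousAt.preimage_mem_nhds hN)
  filter_upwards [hl' N' hN', h𝒰] with m hm hmK
  obtain ⟨y', h1, h2⟩ := hm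
  have h3 : (⟨o, y'⟩ : Q.X) ∈ B := hsB _ _ h2 (hAB (hy m hmK))
  have h4 := (h.orb o _ _ (hB _ (hAB (hy m hmK))) (hB _ h3)).1 h2
  rw [← hy' m hmK, mk_eq_iff (y := ⟨Q.pt y', Q.pt_mem_Z h3⟩) |>.2 h4]
  exact hsub h1

theorem sat_sol (q : W →₀ ℝ) : Q.Sat {x | Q.Sol q x} := fun _ _ e hx => h.sol_eqv e hx

/-- a regular smooth solution is a regular point of the orbit space -/
theorem slcReg {q : W →₀ ℝ} (ha : Adm q) {x : Q.X} (hx : Q.Sol q x) (hr : Q.Reg q x) :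
    Slc61.Reg (Q.L x.1) (Q.H x.1) (Q.G x.1) (Q.Z {x | Q.Sol q x} x.1) (Q.F x.1 q) Q.n
      (Q.pt x.2) := by
  obtain ⟨D, -, h2, h3⟩ := h.slc q x ha hx
  refine ⟨D, _, h.strictF q (h.mem x hx.1), ?_, hr, h2.1.finite_ker, h2.2⟩
  refine D.eventually_sat' (U := Q.U x.1) ((h.isOpen _).mem_nhds (h.mem x hx.1)) ?_
    (fun g v hv => h.F_smul q g hv) ?_
  · rintro _ ⟨y, hy, rfl⟩
    exact ⟨h.mem _ hy.1, hy.2⟩
  · filter_upwards [h3] with v hv h4 h5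
    obtain ⟨y, rfl, h6⟩ := hv h4 h5
    exact ⟨y, ⟨h6, h4⟩, rfl⟩

/-- **Negative index**: no regular solution. -/
theorem nonneg {q : W →₀ ℝ} (ha : Adm q) {x : Q.X} (hx : Q.Sol q x) (hr : Q.Reg q x) : 0 ≤ Q.n :=
  (h.slcReg ha hx hr).nonneg (Q.inv_Z _ _) (Q.pt_mem_Z hx)

/-- **Index zero**: finitely many isomorphism classes. -/
theorem finite {q : W →₀ ℝ} (ha : Adm q) (hn : Q.n = 0) {A : Set Q.X} (hA : ∀ x ∈ A, Q.Sol q x)
    (hs : Q.Sat A) (hc : Q.Cpt A) (hr : ∀ x ∈ A, Q.Reg q x) : Finite (Q.Cl A) := by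
  rcases A.eq_empty_or_nonempty with rfl | hne
  · exact Quotient.finite _
  obtain ⟨R, r, h1, h2⟩ := h.exists_reps (fun x hx => (hA x hx).1) hc hne
  refine (h.cnt_eq_sum (fun x hx => (hA x hx).1) hs R h1 r h2 fun c _ => ?_).1
  have := h.cont (r c).1
  have h3 := finite_of_reg' (L := Q.L (r c).1) (H := Q.H (r c).1) (F := Q.F (r c).1 q) (Q.inv_Z _ _)
    (h.isCompact (B := {x | Q.Sol q x}) (fun x hx => hx.1) hA hs (h.sat_sol q) hc (r c).1) (by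
      rintro v - ⟨g, y, h4, h5⟩
      refine ⟨g, ?_⟩
      rw [← h5, ← hn]
      exact h.slcReg ha (hA _ h4) (hr _ h4))
  rwa [inter_eq_right.2 (Q.Z_mono (B := {x | Q.Sol q x}) hA _)] at h3

/-- **Stokes.** Index one; `t i` invariant parameter functions; the part `∀ i, 0 ≤ t i` is compact
and regular, corners are empty, facets are cut out regularly. -/
theorem stokes {q : W →₀ ℝ} (ha : Adm q) (hn : Q.n = 1) {ι : Type} [Fintype ι]
    (t : ι → ∀ o, Q.C o → ℝ) (ht : ∀ i o, ContinuousOn (t i o) (Q.U o))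
    (hg : ∀ i o (g : Q.G o), ∀ v ∈ Q.U o, t i o (g • v) = t i o v)
    (he : ∀ i x y, Q.In x → Q.eqv x y → t i x.1 (Q.pt x.2) = t i y.1 (Q.pt y.2))
    (hc : Q.Cpt {x | Q.Sol q x ∧ ∀ i, 0 ≤ t i x.1 (Q.pt x.2)})
    (hr : ∀ x, Q.Sol q x → (∀ i, 0 ≤ t i x.1 (Q.pt x.2)) → Q.Reg q x ∧
      ∀ i, t i x.1 (Q.pt x.2) = 0 → ∃ t' : Q.C x.1 →L[ℝ] ℝ,
        HasStrictFDerivAt (t i x.1) t' (Q.pt x.2) ∧
        Surjective ((fderiv ℝ (Q.F x.1 q) (Q.pt x.2)).prod t'))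
    (hcor : ∀ x, Q.Sol q x → (∀ i, 0 ≤ t i x.1 (Q.pt x.2)) → ∀ i j,
      t i x.1 (Q.pt x.2) = 0 → t j x.1 (Q.pt x.2) = 0 → i = j) :
    (∀ i, Finite (Q.Cl {x | Q.Sol q x ∧ (∀ j, 0 ≤ t j x.1 (Q.pt x.2)) ∧ t i x.1 (Q.pt x.2) = 0})) ∧
    Even (∑ i, Q.cnt {x | Q.Sol q x ∧ (∀ j, 0 ≤ t j x.1 (Q.pt x.2)) ∧ t i x.1 (Q.pt x.2) = 0}) := by
  set K : Set Q.X := {x | Q.Sol q x ∧ ∀ i, 0 ≤ t i x.1 (Q.pt x.2)} with hK
  set A : ι → Set Q.X := fun i =>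
    {x | Q.Sol q x ∧ (∀ j, 0 ≤ t j x.1 (Q.pt x.2)) ∧ t i x.1 (Q.pt x.2) = 0} with hA
  have hAK : ∀ i, A i ⊆ K := fun i x hx => ⟨hx.1, hx.2.1⟩
  rcases K.eq_empty_or_nonempty with hK0 | hne
  · have h0 : ∀ i, A i = ∅ := fun i => subset_eq_empty (hAK i) hK0
    refine ⟨fun i => ?_, ?_⟩
    · show Finite (Q.Cl (A i))
      rw [h0]
      exact Quotient.finite _
    · show Even (∑ i, Q.cnt (A i))
      simp [h0, Q.cnt_empty]
  have hsK : Q.Sat K := fun x y e hx => ⟨h.sol_eqv e hx.1, fun i => he i x y hx.1.1 e ▸ hx.2 i⟩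
  have hsA : ∀ i, Q.Sat (A i) := fun i x y e hx =>
    ⟨h.sol_eqv e hx.1, fun j => he j x y hx.1.1 e ▸ hx.2.1 j, he i x y hx.1.1 e ▸ hx.2.2⟩
  obtain ⟨R, r, h1, h2⟩ := h.exists_reps (fun x hx => hx.1.1) hc hne
  have hZU : ∀ o, Q.Z {x | Q.Sol q x} o ⊆ Q.U o := fun o => sat_subset (h.inv o) (by
    rintro _ ⟨y, hy, rfl⟩
    exact h.mem _ hy.1)
  have hZ : ∀ (o : Q.O) (p : (ι → ℝ) → Prop),
      Q.Z {x | Q.Sol q x ∧ p fun i => t i x.1 (Q.pt x.2)} o =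
        Q.Z {x | Q.Sol q x} o ∩ {v | p fun i => t i o v} := by
    intro o p
    ext v
    constructor
    · rintro ⟨g, y, h3, h4⟩
      have hv : v ∈ Q.Z {x | Q.Sol q x} o := ⟨g, y, h3.1, h4⟩
      refine ⟨hv, ?_⟩
      have h5 := h3.2
      simp only [h4, hg _ o g v (hZU o hv)] at h5
      exact h5
    · rintro ⟨⟨g, y, h3, h4⟩, h5⟩
      refine ⟨g, y, ⟨h3, ?_⟩, h4⟩
      simp only [h4, hg _ o g v (hZU o ⟨g, y, h3, h4⟩)]
      exact h5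
  have key : ∀ o, (∀ i, Finite (Mod (Q.G o) (Q.Z (A i) o))) ∧
      Even (∑ i, Slc61.cnt (Q.G o) (Q.Z (A i) o)) := by
    intro o
    have := h.cont o
    have e1 : Q.Z K o = _ := hZ o fun s => ∀ i, 0 ≤ s i
    have e2 : ∀ i, Q.Z (A i) o = _ := fun i => hZ o fun s => (∀ j, 0 ≤ s j) ∧ s i = 0
    have h3 := h.isCompact (B := {x | Q.Sol q x}) (fun x hx => hx.1) (fun x hx => hx.1) hsK
      (h.sat_sol q) hc o
    have h4 : {v : Q.Z {x | Q.Sol q x} o | (v : Q.C o) ∈ Q.Z K o} =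
        {v : Q.Z {x | Q.Sol q x} o | (v : Q.C o) ∈ {v | ∀ i, 0 ≤ t i o v}} := by
      ext v
      rw [e1]
      exact ⟨fun hv => hv.2, fun hv => ⟨v.2, hv⟩⟩
    rw [h4] at h3
    simp only [e2]
    refine even_facets' (L := Q.L o) (H := Q.H o) (F := Q.F o q) (Q.inv_Z _ o)
      ((h.cl o).mono (Q.Z_mono (B := {x | Q.In x}) (fun x hx => hx.1) o)) (fun i => t i o)
      (fun i g v hv => hg i o g v (hZU o hv)) (fun i => (ht i o).mono (hZU o)) h3 ?_ ?_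
    · rintro v ⟨g, y, h5, h6⟩ h7
      have h8 : ∀ i, t i o (Q.pt y) = t i o v := fun i => by
        rw [h6, hg i o g v (hZU o ⟨g, y, h5, h6⟩)]
      obtain ⟨h9, h10⟩ := hr ⟨o, y⟩ h5 fun i => h8 i ▸ h7 i
      refine ⟨g, ?_, fun i hi => ?_⟩
      · rw [← h6, ← hn]
        exact h.slcReg ha h5 h9
      · rw [← h6]
        exact h10 i ((h8 i).trans hi)
    · rintro v ⟨g, y, h5, h6⟩ h7 i j hi hj
      have h8 : ∀ i, t i o (Q.pt y) = t i o v := fun i => by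
        rw [h6, hg i o g v (hZU o ⟨g, y, h5, h6⟩)]
      exact hcor ⟨o, y⟩ h5 (fun i => h8 i ▸ h7 i) i j ((h8 i).trans hi) ((h8 j).trans hj)
  have hs := fun i => h.cnt_eq_sum (A := A i) (fun x hx => hx.1.1) (hsA i) R
    (fun x hx => h1 x (hAK i hx)) r h2 fun c _ => (key (r c).1).1 i
  refine ⟨fun i => (hs i).1, ?_⟩
  show Even (∑ i, Q.cnt (A i))
  simp only [fun i => (hs i).2]
  rw [Finset.sum_comm]
  exact Finset.even_sum _ fun c _ => (key (r c).1).2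

end Ax

end Prob

end Crest.Agent.X212.Mod61
end
end

-- ▼ part X212/Mod61/Good
section

/-! One finite perturbation that is good for finitely many strata (instance of `Fin93`), and
transversality of facets from regularity of the sub-problem. -/

set_option autoImplicit false
set_option linter.unusedSectionVars false

noncomputable section

open Set Filter Topology Function
open scoped ContDiff

namespace Crest.Agent.X212.Mod61

open Fin93 (ext0)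

variable {W S : Type} (P : S → Prob W) (K : ∀ s, (P s).X → Prop)

/-- all solutions of the stratum `s` in the range `K s` are regular -/
def Good (s : S) (q : W →₀ ℝ) : Prop := ∀ x, (P s).Sol q x → K s x → (P s).Reg q x

/-- the data for `Fin93` -/
def dat (rank : S → ℕ) (Adm : (W →₀ ℝ) → Prop) (q₀ : W →₀ ℝ) :
    Fin93.Dat (W →₀ ℝ) (Finset W) S (fun J => J → ℝ) fun s => (P s).X where
  ι J p := q₀ + ext0 J p
  rank := rank
  Adm := Adm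
  Sol s q x := (P s).Sol q x ∧ K s x
  Reg s := (P s).Reg
  Onto s := (P s).Onto
  Near s := (P s).Near

variable {P K}

theorem hyp {rank : S → ℕ} {Adm : (W →₀ ℝ) → Prop} {q₀ : W →₀ ℝ} (h : ∀ s, (P s).Ax Adm)
    (hadm : ∀ (J : Finset W) (p₀ : J → ℝ), Adm (q₀ + ext0 J p₀) →
      ∀ᶠ p in 𝓝 p₀, Adm (q₀ + ext0 J p))
    (hdens : ∀ s (J : Finset W) (p : J → ℝ) x, Adm (q₀ + ext0 J p) → (P s).Sol (q₀ + ext0 J p) x →
      K s x → (P s).Reg (q₀ + ext0 J p) x ∨ ∃ J', (P s).Onto (q₀ + ext0 J p) x J')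
    (hcomp : ∀ s (J : Finset W) (p₀ : J → ℝ), Adm (q₀ + ext0 J p₀) →
      (∀ s', rank s' < rank s → Good P K s' (q₀ + ext0 J p₀)) →
      ∀ (ι : Type) (𝒰 : Ultrafilter ι) (p : ι → J → ℝ) (u : ι → (P s).X), Tendsto p 𝒰 (𝓝 p₀) →
        (∀ᶠ i in (𝒰 : Filter ι), (P s).Sol (q₀ + ext0 J (p i)) (u i) ∧ K s (u i)) →
        (∀ᶠ i in (𝒰 : Filter ι), (P s).Reg (q₀ + ext0 J (p i)) (u i)) ∨
          ∃ x₀, (P s).Sol (q₀ + ext0 J p₀) x₀ ∧ K s x₀ ∧ Tendsto u 𝒰 ((P s).Near x₀)) :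
    (dat P K rank Adm q₀).Hyp where
  stage J J' hJ p := by
    obtain ⟨p', hp'⟩ := Fin93.ext0_stage J J' hJ p
    exact ⟨p', congrArg (q₀ + ·) hp'⟩
  adm := hadm
  mono _ _ _ _ _ hJ ho := Prob.Ax.onto_mono hJ ho
  dens s J p x ha hx := hdens s J p x ha hx.1 hx.2
  onto s _ _ _ _ _ hx ho := ((h s).onto_open hx.1.1 ho).mono fun _ h1 h2 => h1 h2.1.1
  reg s _ _ _ _ hx hr := ((h s).reg_open hx.1.1 hr).mono fun _ h1 h2 => h1 h2.1.1
  loc s J p₀ x₀ ha hx ho := by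
    obtain ⟨A, hA, hres⟩ := (h s).loc ha hx.1 ho
    exact ⟨A, hA, hres.mono fun p hp x h1 h2 => hp x h1 h2.1⟩
  comp s J p₀ ha hd 𝒰 h1 h2 := by
    rcases hcomp s J p₀ ha (fun s' hs' x h3 h4 => hd s' hs' x ⟨h3, h4⟩) _ 𝒰 Prod.fst Prod.snd h1 h2
      with h3 | ⟨x₀, h3, h4, h5⟩
    · exact Or.inl h3
    · exact Or.inr ⟨x₀, ⟨h3, h4⟩, h5⟩

/-- **A good finite perturbation exists.** -/
theorem exists_good [Finite S] {rank : S → ℕ} {Adm : (W →₀ ℝ) → Prop} {q₀ : W →₀ ℝ}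
    (H : (dat P K rank Adm q₀).Hyp) (h0 : Adm q₀) :
    ∃ (J : Finset W) (p : J → ℝ), Adm (q₀ + ext0 J p) ∧ ∀ s, Good P K s (q₀ + ext0 J p) := by
  classical
  have e : q₀ + ext0 (∅ : Finset W) 0 = q₀ := by
    ext w
    simpa using Fin93.ext0_not_mem (J := ∅) 0 (Finset.notMem_empty w)
  obtain ⟨J, -, p, h1, h2⟩ := H.exists_good (J₀ := ∅) (p₀ := 0) (by
    show Adm (q₀ + ext0 (∅ : Finset W) 0)
    rwa [e])
  exact ⟨J, p, h1, fun s x h3 h4 => h2 s x ⟨h3, h4⟩⟩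

section facet

variable {C C' E E' : Type*} [NormedAddCommGroup C] [NormedSpace ℝ C] [NormedAddCommGroup C']
  [NormedSpace ℝ C'] [NormedAddCommGroup E] [NormedSpace ℝ E] [NormedAddCommGroup E']
  [NormedSpace ℝ E']

/-- If the sub-problem `F' = ρ ∘ F ∘ j` on the facet `t = const` is regular, the facet is cut out
regularly. -/
theorem surj_prod_of_sub {F : C → E} {F' : C' → E'} {j : C' → C} {j' : C' →L[ℝ] C} {v : C'}
    {t : C → ℝ} {t' : C →L[ℝ] ℝ} (ρ : E →L[ℝ] E') (hρ : Injective ρ) (hj : HasFDerivAt j j' v)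
    (hF : DifferentiableAt ℝ F (j v)) (he : ∀ᶠ u in 𝓝 v, F' u = ρ (F (j u)))
    (ht : HasFDerivAt t t' (j v)) (hc : ∀ᶠ u in 𝓝 v, t (j u) = t (j v)) (h0 : t' ≠ 0)
    (hs : Surjective (fderiv ℝ F' v)) : Surjective ((fderiv ℝ F (j v)).prod t') := by
  have h1 : HasFDerivAt F' (ρ.comp ((fderiv ℝ F (j v)).comp j')) v :=
    (ρ.hasFDerivAt.comp v (hF.hasFDerivAt.comp v hj)).congr_of_eventuallyEq he
  have h2 : t'.comp j' = 0 :=
    (ht.comp v hj).unique ((hasFDerivAt_const (t (j v)) v).congr_of_eventuallyEq hc)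
  obtain ⟨w, hw⟩ : ∃ w, t' w ≠ 0 := by
    by_contra hn
    exact h0 (ContinuousLinearMap.ext fun u => by simpa using not_exists.1 hn u)
  rintro ⟨f, r⟩
  obtain ⟨u, hu⟩ := hs (ρ (f - (r / t' w) • fderiv ℝ F (j v) w))
  rw [h1.fderiv] at hu
  have h3 : fderiv ℝ F (j v) (j' u) = f - (r / t' w) • fderiv ℝ F (j v) w := hρ hu
  have h4 : t' (j' u) = 0 := congrArg (fun B : C' →L[ℝ] ℝ => B u) h2
  refine ⟨j' u + (r / t' w) • w, ?_⟩
  rw [ContinuousLinearMap.prod_apply, map_add, map_add, map_smul, map_smul, h3, h4]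
  simp [hw]

theorem surj_of_surj_prod {F' : C →L[ℝ] E} {t' : C →L[ℝ] E'} (h : Surjective (F'.prod t')) :
    Surjective F' := fun f => by
  obtain ⟨v, hv⟩ := h (f, 0)
  exact ⟨v, congrArg Prod.fst hv⟩

end facet

/-- Comparison of the counts of two problems at the level of smooth configurations. -/
theorem cnt_congr {W W' : Type} {Q : Prob W} {Q' : Prob W'} {A : Set Q.X} {A' : Set Q'.X}
    (f : A → A') (h : ∀ x y : A, Q.eqv x y ↔ Q'.eqv (f x) (f y))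
    (hs : ∀ y : A', ∃ x : A, Q'.eqv (f x) y) :
    Nonempty (Q.Cl A ≃ Q'.Cl A') ∧ Q.cnt A = Q'.cnt A' := by
  let e : Q.Cl A ≃ Q'.Cl A' := Equiv.ofBijective
    (Quotient.lift (s := Q.eqv.comap Subtype.val) (fun x => Quotient.mk _ (f x))
      fun x y hxy => Quotient.sound ((h x y).1 hxy))
    ⟨by
      intro a b
      obtain ⟨x, rfl⟩ := Quotient.mk_surjective a
      obtain ⟨y, rfl⟩ := Quotient.mk_surjective b
      intro hxy
      have h1 : (Q'.eqv.comap (Subtype.val : A' → Q'.X)) (f x) (f y) := Quotient.exact hxy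
      exact Quotient.sound ((h x y).2 h1),
     by
      intro m
      obtain ⟨y, rfl⟩ := Quotient.mk_surjective m
      obtain ⟨x, hx⟩ := hs y
      exact ⟨Quotient.mk _ x, Quotient.sound hx⟩⟩
  exact ⟨⟨e⟩, Nat.card_congr e⟩

end Crest.Agent.X212.Mod61
end
end

-- ▼ part X212/An/Strat

/-!
# Row 212, layer AN: stratified genericity with full objects

A stratum `s` has full (ideal, broken) objects `X s`, a solution predicate, and ONE regularising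
problem `P s` (a part of the object: the free pieces, one irreducible piece, ...).  A stratum with
several parts to be regularised is listed once for each part.
-/

set_option autoImplicit false
set_option linter.unusedSectionVars false
noncomputable section
open Set Filter Topology Function

namespace Crest.Agent.X212.An
open Mod61 Fin93

/-- stratified problems -/
structure St (W : Type) : Type 1 where
  S : Type
  X : S → Type
  Sol : ∀ s, (W →₀ ℝ) → X s → Prop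
  P : S → Prob W
  pr : ∀ {s}, X s → (P s).X
  rank : S → ℕ
  Adm : (W →₀ ℝ) → Prop

namespace St
variable {W : Type} (T : St W)

/-- the regularising parts of all solutions of the stratum are regular -/
def Good (s : T.S) (q : W →₀ ℝ) : Prop := ∀ x, T.Sol s q x → (T.P s).Reg q (T.pr x)

/-- no solutions -/
def Emp (s : T.S) (q : W →₀ ℝ) : Prop := ∀ x, ¬ T.Sol s q x

/-- `q i → q₀` inside one finite stage -/
def Cv {ι : Type} (l : Filter ι) (q : ι → W →₀ ℝ) (q₀ : W →₀ ℝ) : Prop :=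
  ∃ J : Finset W, (∀ i w, w ∉ J → q i w = q₀ w) ∧ ∀ w, Tendsto (fun i => q i w) l (𝓝 (q₀ w))

/-- the axioms -/
structure Ax : Prop where
  fin : Finite T.S
  ax : ∀ s, (T.P s).Ax T.Adm
  adm : ∀ q₀, T.Adm q₀ → ∀ (ι : Type) (l : Filter ι) (q : ι → W →₀ ℝ), Cv l q q₀ →
    ∀ᶠ i in l, T.Adm (q i)
  sol : ∀ s q x, T.Adm q → T.Sol s q x → (T.P s).Sol q (T.pr x)
  dens : ∀ s q x, T.Adm q → T.Sol s q x →
    (T.P s).Reg q (T.pr x) ∨ ∃ J, (T.P s).Onto q (T.pr x) J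
  comp : ∀ s q₀, T.Adm q₀ → (∀ s', T.rank s' < T.rank s → T.Good s' q₀) →
    ∀ (ι : Type) (𝒰 : Ultrafilter ι) (q : ι → W →₀ ℝ) (u : ι → T.X s), Cv (𝒰 : Filter ι) q q₀ →
      (∀ᶠ i in (𝒰 : Filter ι), T.Adm (q i) ∧ T.Sol s (q i) (u i)) →
      (∀ᶠ i in (𝒰 : Filter ι), (T.P s).Reg (q i) (T.pr (u i))) ∨
        ∃ x₀, T.Sol s q₀ x₀ ∧ Tendsto (fun i => T.pr (u i)) 𝒰 ((T.P s).Near (T.pr x₀))

theorem cv_ext0 {ι : Type} {l : Filter ι} (q₀ : W →₀ ℝ) {J : Finset W} {p : ι → J → ℝ}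
    {p₀ : J → ℝ} (h : Tendsto p l (𝓝 p₀)) : Cv l (fun i => q₀ + ext0 J (p i)) (q₀ + ext0 J p₀) := by
  refine ⟨J, fun i w hw => ?_, fun w => ?_⟩
  · simp only [Finsupp.add_apply, ext0_not_mem _ hw]
  · by_cases hw : w ∈ J
    · have e : ∀ r : J → ℝ, ext0 J r w = r ⟨w, hw⟩ := fun r => ext0_mem r ⟨w, hw⟩
      simp only [Finsupp.add_apply, e]
      exact tendsto_const_nhds.add (((continuous_apply _).tendsto p₀).comp h)
    · simp only [Finsupp.add_apply, ext0_not_mem _ hw]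
      exact tendsto_const_nhds

theorem cv_const {ι : Type} (l : Filter ι) (q₀ : W →₀ ℝ) : Cv l (fun _ => q₀) q₀ :=
  ⟨∅, fun _ _ _ => rfl, fun _ => tendsto_const_nhds⟩

/-- the data for `Fin93`, with an extra open condition `O` -/
def dat (O : (W →₀ ℝ) → Prop) (q₀ : W →₀ ℝ) :
    Fin93.Dat (W →₀ ℝ) (Finset W) T.S (fun J => J → ℝ) T.X where
  ι J p := q₀ + ext0 J p
  rank := T.rank
  Adm q := T.Adm q ∧ O q
  Sol := T.Sol
  Reg s q x := (T.P s).Reg q (T.pr x)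
  Onto s q x := (T.P s).Onto q (T.pr x)
  Near s x₀ := comap T.pr ((T.P s).Near (T.pr x₀))

/-- conditions that are open in every finite stage -/
def IsOp (O : (W →₀ ℝ) → Prop) : Prop :=
  ∀ q₀, O q₀ → ∀ (ι : Type) (l : Filter ι) (q : ι → W →₀ ℝ), Cv l q q₀ → ∀ᶠ i in l, O (q i)

theorem IsOp.and {O O' : (W →₀ ℝ) → Prop} (h : IsOp O) (h' : IsOp O') :
    IsOp fun q => O q ∧ O' q :=
  fun q₀ h0 ι l q hq => (h q₀ h0.1 ι l q hq).and (h' q₀ h0.2 ι l q hq)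

theorem isOp_true : IsOp fun _ : W →₀ ℝ => True := fun _ _ _ _ _ _ => Eventually.of_forall fun _ => trivial

variable {T}
namespace Ax
variable (h : T.Ax)
include h

theorem hyp {O : (W →₀ ℝ) → Prop} (hO : IsOp O) (q₀ : W →₀ ℝ) : (T.dat O q₀).Hyp where
  stage J J' hJ p := by
    obtain ⟨p', hp'⟩ := Fin93.ext0_stage J J' hJ p
    exact ⟨p', congrArg (q₀ + ·) hp'⟩
  adm J p₀ ha := (IsOp.and h.adm hO) _ ha _ _ _ (cv_ext0 q₀ tendsto_id)
  mono _ _ _ _ _ hJ ho := Prob.Ax.onto_mono hJ ho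
  dens s J p x ha hx := h.dens s _ x ha.1 hx
  onto s J p x₀ J' ha hx ho :=
    (tendsto_comap.eventually ((h.ax s).onto_open (h.sol s _ x₀ ha.1 hx).1 ho)).mono
      fun x h1 h2 => h1 (h.sol s _ x ha.1 h2).1
  reg s J p₀ x₀ ha hx hr := by
    have h1 := (h.ax s).reg_open (h.sol s _ x₀ ha.1 hx).1 hr
    have h2 : Tendsto (Prod.map id T.pr) (𝓝 p₀ ×ˢ comap T.pr ((T.P s).Near (T.pr x₀)))
        (𝓝 p₀ ×ˢ (T.P s).Near (T.pr x₀)) := tendsto_id.prodMap tendsto_comap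
    have h3 := tendsto_fst (g := comap T.pr ((T.P s).Near (T.pr x₀))) |>.eventually
      (h.adm _ ha.1 _ _ _ (cv_ext0 q₀ (tendsto_id (x := 𝓝 p₀))))
    filter_upwards [h2.eventually h1, h3] with z h4 h5 h6
    exact h4 (h.sol s _ _ h5 h6).1
  loc s J p₀ x₀ ha hx ho := by
    obtain ⟨A, hA, hres⟩ := (h.ax s).loc ha.1 (h.sol s _ x₀ ha.1 hx) ho
    have h2 : Tendsto (Prod.map id T.pr) (𝓝 p₀ ×ˢ comap T.pr ((T.P s).Near (T.pr x₀)))
        (𝓝 p₀ ×ˢ (T.P s).Near (T.pr x₀)) := tendsto_id.prodMap tendsto_comap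
    have h3 := tendsto_fst (g := comap T.pr ((T.P s).Near (T.pr x₀))) |>.eventually
      (h.adm _ ha.1 _ _ _ (cv_ext0 q₀ (tendsto_id (x := 𝓝 p₀))))
    refine ⟨_, inter_mem (h2 hA) h3, hres.mono fun p hp x h4 h5 => ?_⟩
    exact hp (T.pr x) h4.1 (h.sol s _ x h4.2 h5)
  comp s J p₀ ha hd 𝒰 h1 h2 := by
    have hc := cv_ext0 q₀ h1
    rcases h.comp s _ ha.1 hd _ 𝒰 _ Prod.snd hc ((h.adm _ ha.1 _ _ _ hc).and h2)
      with h3 | ⟨x₀, h3, h4⟩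
    · exact Or.inl h3
    · exact Or.inr ⟨x₀, h3, tendsto_comap_iff.2 h4⟩

/-- **A good finite perturbation exists in every stage-open set.** -/
theorem exists_good {O : (W →₀ ℝ) → Prop} (hO : IsOp O) {q₀ : W →₀ ℝ} (h0 : T.Adm q₀)
    (h1 : O q₀) : ∃ q, T.Adm q ∧ O q ∧ ∀ s, T.Good s q := by
  classical
  have := h.fin
  have e : q₀ + ext0 (∅ : Finset W) 0 = q₀ := by
    ext w
    simpa using Fin93.ext0_not_mem (J := ∅) 0 (Finset.notMem_empty w)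
  obtain ⟨J, -, p, h2, h3⟩ := (h.hyp hO q₀).exists_good (J₀ := ∅) (p₀ := 0) (by
    show T.Adm (q₀ + ext0 (∅ : Finset W) 0) ∧ O (q₀ + ext0 (∅ : Finset W) 0)
    rw [e]; exact ⟨h0, h1⟩)
  exact ⟨_, h2.1, h2.2, h3⟩

/-- the good set is stage-open -/
theorem isOp_good : IsOp fun q => T.Adm q ∧ ∀ s, T.Good s q := by
  classical
  have := h.fin
  rintro q₀ ⟨ha, hg⟩ ι l q hq
  refine (h.adm q₀ ha ι l q hq).and ?_
  obtain ⟨J, hJ, hl⟩ := hq
  have e : q₀ + ext0 J 0 = q₀ := by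
    ext w
    by_cases hw : w ∈ J
    · simpa using Fin93.ext0_mem (0 : J → ℝ) ⟨w, hw⟩
    · simpa using Fin93.ext0_not_mem (0 : J → ℝ) hw
  have e' : ∀ i, q₀ + ext0 J (fun w : J => q i w - q₀ w) = q i := fun i => by
    ext w
    by_cases hw : w ∈ J
    · have := Fin93.ext0_mem (fun w : J => q i w - q₀ w) ⟨w, hw⟩
      simp only [Finsupp.add_apply, this]; ring
    · simp only [Finsupp.add_apply, Fin93.ext0_not_mem _ hw, hJ i w hw, add_zero]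
  have h1 := (h.hyp isOp_true q₀).good_all_open (J := J) (p₀ := 0)
    (by show T.Adm (q₀ + ext0 J 0) ∧ True; rw [e]; exact ⟨ha, trivial⟩)
    (by show ∀ s, T.Good s (q₀ + ext0 J 0); rw [e]; exact hg)
  have h2 : Tendsto (fun i => fun w : J => q i w - q₀ w) l (𝓝 0) :=
    tendsto_pi_nhds.2 fun w => tendsto_sub_nhds_zero_iff.2 (hl w)
  filter_upwards [h2.eventually h1] with i hi
  rw [← e' i]; exact hi

/-- good strata with a regularising problem of negative index are empty -/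
theorem emp_of_neg {s : T.S} {q : W →₀ ℝ} (ha : T.Adm q) (hg : T.Good s q) (hn : (T.P s).n < 0) :
    T.Emp s q := fun x hx =>
  absurd ((h.ax s).nonneg ha (h.sol s q x ha hx) (hg x hx)) (not_le.2 hn)

end Ax
end St
end Crest.Agent.X212.An
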